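import Vale.Agent.P363.H849.Prof

/-! Radial profiles and the operator `½ r (-Δ + κ²)` in weak form. -/

namespace Vale.Agent.P363.H849

open MeasureTheory Set Real Filter Topology
open scoped ENNReal ContDiff
open Vale.Agent.P363.R.Sob (IsWD Test)

noncomputable section

theorem inner_e3 (x : R3) (k : Fin 3) : inner ℝ x (e3 k) = x k := by
  simp [e3, EuclideanSpace.inner_single_right]

theorem norm_contDiffAt {x : R3} (hx : x ≠ 0) : ContDiffAt ℝ ∞ (fun y : R3 => ‖y‖) x :=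
  contDiffAt_norm ℝ hx

theorem fderiv_norm_e3 {x : R3} (hx : x ≠ 0) (k : Fin 3) :
    fderiv ℝ (fun y : R3 => ‖y‖) x (e3 k) = x k / ‖x‖ := by
  have hx0 : ‖x‖ ≠ 0 := norm_ne_zero_iff.2 hx
  have h1 : HasFDerivAt (fun y : R3 => ‖y‖) (fderiv ℝ (fun y : R3 => ‖y‖) x) x :=
    ((norm_contDiffAt hx).differentiableAt (by simp)).hasFDerivAt
  have h2 : HasFDerivAt (fun y : R3 => ‖y‖ ^ 2) ((2 * ‖x‖ ^ 1) • fderiv ℝ (fun y : R3 => ‖y‖) x) x := by
    have := h1.pow 2
    simpa using this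
  have h3 : HasFDerivAt (fun y : R3 => ‖y‖ ^ 2) (2 • innerSL ℝ x) x :=
    (hasStrictFDerivAt_norm_sq x).hasFDerivAt
  have h4 := h2.unique h3
  have h5 := congrArg (fun L : R3 →L[ℝ] ℝ => L (e3 k)) h4
  simp only [_root_.smul_apply, smul_eq_mul, pow_one, innerSL_apply_apply, inner_e3, nsmul_eq_mul] at h5
  rw [eq_div_iff hx0]
  push_cast at h5
  linarith

/-- Radial profile with its iterated `(1/s) d/ds` derivatives. -/
structure IsProf (h h1 h2 : ℝ → ℝ) : Prop where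
  sm : ∀ s, 0 < s → ContDiffAt ℝ ∞ h s
  sm1 : ∀ s, 0 < s → ContDiffAt ℝ ∞ h1 s
  sm2 : ∀ s, 0 < s → ContinuousAt h2 s
  d : ∀ s, 0 < s → HasDerivAt h (s * h1 s) s
  d1 : ∀ s, 0 < s → HasDerivAt h1 (s * h2 s) s
  bd : ∃ A c : ℝ, 0 ≤ A ∧ 0 < c ∧ ∀ s, 0 < s → |h s| ≤ A * exp (-c * s) ∧
    s * |h1 s| ≤ A * exp (-c * s) ∧ s ^ 3 * |h2 s| ≤ A * exp (-c * s)

/-- polynomial times radial function -/
def G (p : Poly) (h : ℝ → ℝ) (x : R3) : ℝ := ev p x * h ‖x‖

theorem G_contDiffAt (p : Poly) {h : ℝ → ℝ} {x : R3} (hx : x ≠ 0) (hh : ContDiffAt ℝ ∞ h ‖x‖) :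
    ContDiffAt ℝ ∞ (G p h) x :=
  (ev_contDiff p).contDiffAt.mul (hh.comp x (norm_contDiffAt hx))

theorem G_fderiv (p : Poly) {h h1 : ℝ → ℝ} {x : R3} (hx : x ≠ 0)
    (hd : HasDerivAt h (‖x‖ * h1 ‖x‖) ‖x‖) (k : Fin 3) :
    fderiv ℝ (G p h) x (e3 k)
      = G (MvPolynomial.pderiv k p) h x + G (MvPolynomial.X k * p) h1 x := by
  have hx0 : ‖x‖ ≠ 0 := norm_ne_zero_iff.2 hx
  have hn : HasFDerivAt (fun y : R3 => ‖y‖) (fderiv ℝ (fun y : R3 => ‖y‖) x) x :=
    ((norm_contDiffAt hx).differentiableAt (by simp)).hasFDerivAt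
  have h2 : HasFDerivAt (fun y : R3 => h ‖y‖)
      ((‖x‖ * h1 ‖x‖) • fderiv ℝ (fun y : R3 => ‖y‖) x) x := hd.comp_hasFDerivAt x hn
  have h3 : HasFDerivAt (ev p) (fderiv ℝ (ev p) x) x :=
    ((ev_contDiff p).differentiable (by simp) x).hasFDerivAt
  have h4 := (h3.mul h2).fderiv
  rw [show (G p h) = (ev p * fun y : R3 => h ‖y‖) from rfl, h4]
  simp only [_root_.add_apply, _root_.smul_apply, smul_eq_mul, ev_hasFDerivAt, fderiv_norm_e3 hx, G,
    ev_mul, ev_X]
  field_simp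
  ring

theorem contAt_radial {h : ℝ → ℝ} {x : R3} (hh : ContinuousAt h ‖x‖) :
    ContinuousAt (fun y : R3 => h ‖y‖) x :=
  ContinuousAt.comp (f := fun y : R3 => ‖y‖) hh continuous_norm.continuousAt

namespace IsProf

variable {h h1 h2 : ℝ → ℝ}

theorem bd0 (H : IsProf h h1 h2) (p : Poly) : Bd0 (G p h) := by
  obtain ⟨A, c, hA, hc, hb⟩ := H.bd
  have : Bd0 (fun x : R3 => h ‖x‖) := by
    refine ⟨fun x hx => contAt_radial (H.sm _ (norm_pos_iff.2 hx)).continuousAt, A, c, hA, hc,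
      fun x hx => (hb _ (norm_pos_iff.2 hx)).1⟩
  exact this.ev_mul p

theorem bd1_X (H : IsProf h h1 h2) (p : Poly) (k : Fin 3) :
    Bd0 (G (MvPolynomial.X k * p) h1) := by
  obtain ⟨A, c, hA, hc, hb⟩ := H.bd
  have : Bd0 (fun x : R3 => x k * h1 ‖x‖) := by
    refine ⟨fun x hx => ContinuousAt.mul
      (EuclideanSpace.proj (𝕜 := ℝ) k : R3 →L[ℝ] ℝ).continuous.continuousAt
      (contAt_radial (H.sm1 _ (norm_pos_iff.2 hx)).continuousAt), A, c, hA, hc,
      fun x hx => ?_⟩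
    rw [abs_mul]
    have h2 : |x k| ≤ ‖x‖ := by
      have h2 := PiLp.norm_apply_le x k
      rwa [Real.norm_eq_abs] at h2
    exact (mul_le_mul_of_nonneg_right h2 (abs_nonneg _)).trans (hb _ (norm_pos_iff.2 hx)).2.1
  have h3 := this.ev_mul p
  have h4 : (G (MvPolynomial.X k * p) h1) = fun x : R3 => ev p x * (x k * h1 ‖x‖) := by
    funext x
    rw [G, _root_.Vale.Agent.P363.H849.ev_mul, ev_X]; ring
  rwa [h4]

theorem bd1_h1 (H : IsProf h h1 h2) (p : Poly) : Bd1 (G p h1) := by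
  obtain ⟨A, c, hA, hc, hb⟩ := H.bd
  have : Bd1 (fun x : R3 => h1 ‖x‖) := by
    refine ⟨fun x hx => contAt_radial (H.sm1 _ (norm_pos_iff.2 hx)).continuousAt, A, c, hA, hc,
      fun x hx => ?_⟩
    rw [le_div_iff₀ (norm_pos_iff.2 hx), mul_comm]
    exact (hb _ (norm_pos_iff.2 hx)).2.1
  exact this.ev_mul p

theorem bd1_h2 (H : IsProf h h1 h2) (p : Poly) (k : Fin 3) :
    Bd1 (G (MvPolynomial.X k * (MvPolynomial.X k * p)) h2) := by
  obtain ⟨A, c, hA, hc, hb⟩ := H.bd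
  have : Bd1 (fun x : R3 => x k * (x k * h2 ‖x‖)) := by
    have hk : Continuous (fun x : R3 => x k) :=
      (EuclideanSpace.proj (𝕜 := ℝ) k : R3 →L[ℝ] ℝ).continuous
    refine ⟨fun x hx => ContinuousAt.mul hk.continuousAt (ContinuousAt.mul hk.continuousAt
      (contAt_radial (H.sm2 _ (norm_pos_iff.2 hx)))), A, c, hA, hc,
      fun x hx => ?_⟩
    rw [abs_mul, abs_mul]
    have h2' : |x k| ≤ ‖x‖ := by
      have h2 := PiLp.norm_apply_le x k
      rwa [Real.norm_eq_abs] at h2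
    rw [le_div_iff₀ (norm_pos_iff.2 hx)]
    calc |x k| * (|x k| * |h2 ‖x‖|) * ‖x‖ ≤ ‖x‖ * (‖x‖ * |h2 ‖x‖|) * ‖x‖ := by gcongr
      _ = ‖x‖ ^ 3 * |h2 ‖x‖| := by ring
      _ ≤ _ := (hb _ (norm_pos_iff.2 hx)).2.2
  have h3 := this.ev_mul p
  have h4 : (G (MvPolynomial.X k * (MvPolynomial.X k * p)) h2)
      = fun x : R3 => ev p x * (x k * (x k * h2 ‖x‖)) := by
    funext x
    rw [G, _root_.Vale.Agent.P363.H849.ev_mul, _root_.Vale.Agent.P363.H849.ev_mul, ev_X]; ring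
  rwa [h4]

end IsProf

/-- Laplacian of polynomials -/
def lap (p : Poly) : Poly := ∑ k : Fin 3, MvPolynomial.pderiv k (MvPolynomial.pderiv k p)

/-- Euler operator -/
def eul (p : Poly) : Poly := ∑ k : Fin 3, MvPolynomial.X k * MvPolynomial.pderiv k p

theorem norm_sq_R3 (x : R3) : ‖x‖ ^ 2 = ∑ k : Fin 3, x k ^ 2 := by
  rw [EuclideanSpace.norm_sq_eq]; simp

/-- the classical Laplacian of `G p h` -/
def lapG (p : Poly) (h h1 h2 : ℝ → ℝ) (x : R3) : ℝ :=
  ev (lap p) x * h ‖x‖ + 2 * ev (eul p) x * h1 ‖x‖ + 3 * ev p x * h1 ‖x‖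
    + ev p x * (‖x‖ ^ 2 * h2 ‖x‖)

/-- Weak identity for polynomials times radial profiles. -/
theorem prof_ibp {f : R3 → ℝ} {g : Fin 3 → R3 → ℝ} (hf : MemLp f 2) (hg : ∀ k, MemLp (g k) 2)
    (hW : ∀ k, IsWD volume (e3 k) f (g k)) {h h1 h2 : ℝ → ℝ} (H : IsProf h h1 h2) (p : Poly) :
    ∑ k, ∫ x, (G (MvPolynomial.pderiv k p) h x + G (MvPolynomial.X k * p) h1 x) * g k x
      = - ∫ x, lapG p h h1 h2 x * f x := by
  set u' : Fin 3 → R3 → ℝ := fun k x =>
    (G (MvPolynomial.pderiv k (MvPolynomial.pderiv k p)) h x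
      + G (MvPolynomial.X k * MvPolynomial.pderiv k p) h1 x)
    + (G (MvPolynomial.pderiv k (MvPolynomial.X k * p)) h1 x
      + G (MvPolynomial.X k * (MvPolynomial.X k * p)) h2 x) with hu'
  have hbd : ∀ k, Bd1 (u' k) := fun k =>
    ((H.bd0 _).add (H.bd1_X _ k)).bd1.add ((H.bd1_h1 _).add (H.bd1_h2 p k))
  have hk : ∀ k, ∫ x, u' k x * f x
      = - ∫ x, (G (MvPolynomial.pderiv k p) h x + G (MvPolynomial.X k * p) h1 x) * g k x := by
    intro k
    have hb : Bd0 (fun x => G (MvPolynomial.pderiv k p) h x + G (MvPolynomial.X k * p) h1 x) :=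
      (H.bd0 _).add (H.bd1_X _ k)
    refine reg_ibp hf (hg k) (hW k) ?_ ?_ hb.div_norm.memLp hb.memLp (hbd k).memLp
    · intro x hx
      exact (G_contDiffAt _ hx (H.sm _ (norm_pos_iff.2 hx))).add
        (G_contDiffAt _ hx (H.sm1 _ (norm_pos_iff.2 hx)))
    · intro x hx
      have d1 : DifferentiableAt ℝ (G (MvPolynomial.pderiv k p) h) x :=
        (G_contDiffAt _ hx (H.sm _ (norm_pos_iff.2 hx))).differentiableAt (by simp)
      have d2 : DifferentiableAt ℝ (G (MvPolynomial.X k * p) h1) x :=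
        (G_contDiffAt _ hx (H.sm1 _ (norm_pos_iff.2 hx))).differentiableAt (by simp)
      rw [fderiv_fun_add d1 d2, _root_.add_apply,
        G_fderiv _ hx (H.d _ (norm_pos_iff.2 hx)), G_fderiv _ hx (H.d1 _ (norm_pos_iff.2 hx))]
  have hsum : ∀ x : R3, ∑ k, u' k x = lapG p h h1 h2 x := by
    intro x
    simp only [hu', G, lapG, lap, eul, ev_sum, ev_mul, ev_X, ev_add, Derivation.leibniz,
      MvPolynomial.pderiv_X_self, smul_eq_mul, mul_one]
    rw [norm_sq_R3]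
    simp only [Fin.sum_univ_three]
    ring
  have hlap : ∫ x, lapG p h h1 h2 x * f x = ∑ k, ∫ x, u' k x * f x := by
    rw [← integral_finsetSum]
    · congr 1
      funext x
      rw [← hsum x, Finset.sum_mul]
    · intro k _
      exact (hbd k).memLp.integrable_mul hf
  rw [hlap, ← Finset.sum_neg_distrib]
  apply Finset.sum_congr rfl
  intro k _
  rw [hk k, neg_neg]

/-! ### the two profiles -/

/-- `e^{-κ s}` and its derivatives -/
def hA (κ : ℝ) (s : ℝ) : ℝ := exp (-κ * s)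
def hA1 (κ : ℝ) (s : ℝ) : ℝ := -κ / s * exp (-κ * s)
def hA2 (κ : ℝ) (s : ℝ) : ℝ := κ * (κ / s ^ 2 + 1 / s ^ 3) * exp (-κ * s)

/-- `s e^{-κ s}` and its derivatives -/
def hB (κ : ℝ) (s : ℝ) : ℝ := s * exp (-κ * s)
def hB1 (κ : ℝ) (s : ℝ) : ℝ := (1 / s - κ) * exp (-κ * s)
def hB2 (κ : ℝ) (s : ℝ) : ℝ := (-1 / s ^ 3 - κ / s ^ 2 + κ ^ 2 / s) * exp (-κ * s)

theorem exp_hasDerivAt (κ s : ℝ) : HasDerivAt (fun s : ℝ => exp (-κ * s)) (-κ * exp (-κ * s)) s := by
  have h1 : HasDerivAt (fun s : ℝ => -κ * s) (-κ) s := by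
    simpa using (hasDerivAt_id s).const_mul (-κ)
  have := h1.exp
  rw [mul_comm (-κ) (exp _)]
  exact this

theorem exp_smooth (κ s : ℝ) : ContDiffAt ℝ ∞ (fun s : ℝ => exp (-κ * s)) s :=
  (contDiff_const.mul contDiff_id).exp.contDiffAt

theorem quad_bound {κ s : ℝ} (hκ : 0 < κ) (hs : 0 < s) :
    (8 + 4 * (κ * s) + (κ * s) ^ 2) * exp (-κ * s) ≤ 8 * exp (-(κ / 2) * s) := by
  have h1 := Real.quadratic_le_exp_of_nonneg (x := κ / 2 * s) (by positivity)
  have h2 : exp (-κ * s) = exp (-(κ / 2) * s) * exp (-(κ / 2) * s) := by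
    rw [← Real.exp_add]; ring_nf
  have h3 : exp (κ / 2 * s) * exp (-(κ / 2) * s) = 1 := by
    rw [← Real.exp_add]; simp
  have h4 : (8 + 4 * (κ * s) + (κ * s) ^ 2) ≤ 8 * exp (κ / 2 * s) := by nlinarith
  calc (8 + 4 * (κ * s) + (κ * s) ^ 2) * exp (-κ * s)
      ≤ 8 * exp (κ / 2 * s) * exp (-κ * s) := mul_le_mul_of_nonneg_right h4 (exp_pos _).le
    _ = 8 * (exp (κ / 2 * s) * exp (-(κ / 2) * s)) * exp (-(κ / 2) * s) := by rw [h2]; ring
    _ = _ := by rw [h3]; ring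

theorem isProfA {κ : ℝ} (hκ : 0 < κ) : IsProf (hA κ) (hA1 κ) (hA2 κ) where
  sm s _ := exp_smooth κ s
  sm1 s hs := by
    unfold hA1
    exact (contDiffAt_const.div contDiffAt_id hs.ne').mul (exp_smooth κ s)
  sm2 s hs := by
    unfold hA2
    have h2 : s ^ 2 ≠ 0 := by positivity
    have h3 : s ^ 3 ≠ 0 := by positivity
    fun_prop (disch := assumption)
  d s hs := by
    unfold hA hA1
    refine (exp_hasDerivAt κ s).congr_deriv ?_
    field_simp
  d1 s hs := by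
    unfold hA1 hA2
    have h1 : HasDerivAt (fun s : ℝ => -κ / s) (κ / s ^ 2) s := by
      have h0 := (hasDerivAt_inv hs.ne').const_mul (-κ)
      have e : (fun s : ℝ => -κ / s) = (fun s : ℝ => -κ * s⁻¹) := by
        funext y; rw [div_eq_mul_inv]
      rw [e]
      exact h0.congr_deriv (by rw [div_eq_mul_inv]; ring)
    refine (h1.mul (exp_hasDerivAt κ s)).congr_deriv ?_
    field_simp
    ring
  bd := by
    refine ⟨8 * (1 + κ), κ / 2, by positivity, by positivity, fun s hs => ?_⟩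
    have hq := quad_bound hκ hs
    have he : 0 < exp (-κ * s) := exp_pos _
    have hks : 0 < κ * s := by positivity
    have hbase : ∀ t : ℝ, t ≤ (1 + κ) * (8 + 4 * (κ * s) + (κ * s) ^ 2) →
        t * exp (-κ * s) ≤ 8 * (1 + κ) * exp (-(κ / 2) * s) := by
      intro t ht
      calc t * exp (-κ * s) ≤ (1 + κ) * (8 + 4 * (κ * s) + (κ * s) ^ 2) * exp (-κ * s) := by gcongr
        _ = (1 + κ) * ((8 + 4 * (κ * s) + (κ * s) ^ 2) * exp (-κ * s)) := by ring
        _ ≤ (1 + κ) * (8 * exp (-(κ / 2) * s)) := by gcongr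
        _ = _ := by ring
    refine ⟨?_, ?_, ?_⟩
    · unfold hA
      rw [abs_of_pos he]
      have := hbase 1 (by nlinarith [mul_pos hκ hks, sq_nonneg (κ * s), mul_nonneg hκ.le (sq_nonneg (κ * s))])
      linarith
    · unfold hA1
      have h1 : s * |-κ / s * exp (-κ * s)| = κ * exp (-κ * s) := by
        rw [abs_mul, abs_of_pos he, abs_div, abs_neg, abs_of_pos hκ, abs_of_pos hs]
        field_simp
      rw [h1]
      exact hbase _ (by nlinarith [mul_pos hκ hks, sq_nonneg (κ * s), mul_nonneg hκ.le (sq_nonneg (κ * s))])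
    · unfold hA2
      have h1 : s ^ 3 * |κ * (κ / s ^ 2 + 1 / s ^ 3) * exp (-κ * s)|
          = (κ * (κ * s + 1)) * exp (-κ * s) := by
        rw [abs_of_pos (by positivity)]
        field_simp
      rw [h1]
      exact hbase _ (by nlinarith [mul_pos hκ hks, sq_nonneg (κ * s), mul_nonneg hκ.le (sq_nonneg (κ * s))])

theorem isProfB {κ : ℝ} (hκ : 0 < κ) : IsProf (hB κ) (hB1 κ) (hB2 κ) where
  sm s _ := contDiffAt_id.mul (exp_smooth κ s)
  sm1 s hs := by
    unfold hB1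
    exact ((contDiffAt_const.div contDiffAt_id hs.ne').sub contDiffAt_const).mul (exp_smooth κ s)
  sm2 s hs := by
    unfold hB2
    have h1 : s ≠ 0 := hs.ne'
    have h2 : s ^ 2 ≠ 0 := by positivity
    have h3 : s ^ 3 ≠ 0 := by positivity
    fun_prop (disch := assumption)
  d s hs := by
    unfold hB hB1
    refine ((hasDerivAt_id s).mul (exp_hasDerivAt κ s)).congr_deriv ?_
    simp only [id]
    field_simp
    ring
  d1 s hs := by
    unfold hB1 hB2
    have h1 : HasDerivAt (fun s : ℝ => 1 / s - κ) (-1 / s ^ 2) s := by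
      have h0 := (hasDerivAt_inv hs.ne').sub_const κ
      have e : (fun s : ℝ => 1 / s - κ) = (fun s : ℝ => s⁻¹ - κ) := by
        funext y; rw [one_div]
      rw [e]
      exact h0.congr_deriv (by rw [div_eq_mul_inv]; ring)
    refine (h1.mul (exp_hasDerivAt κ s)).congr_deriv ?_
    field_simp
    ring
  bd := by
    refine ⟨8 * (1 + 1 / κ), κ / 2, by positivity, by positivity, fun s hs => ?_⟩
    have hq := quad_bound hκ hs
    have he : 0 < exp (-κ * s) := exp_pos _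
    have hks : 0 < κ * s := by positivity
    have hbase : ∀ t : ℝ, t ≤ (1 + 1 / κ) * (8 + 4 * (κ * s) + (κ * s) ^ 2) →
        t * exp (-κ * s) ≤ 8 * (1 + 1 / κ) * exp (-(κ / 2) * s) := by
      intro t ht
      calc t * exp (-κ * s) ≤ (1 + 1 / κ) * (8 + 4 * (κ * s) + (κ * s) ^ 2) * exp (-κ * s) := by gcongr
        _ = (1 + 1 / κ) * ((8 + 4 * (κ * s) + (κ * s) ^ 2) * exp (-κ * s)) := by ring
        _ ≤ (1 + 1 / κ) * (8 * exp (-(κ / 2) * s)) := by gcongr
        _ = _ := by ring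
    have hq1 : 0 ≤ 1 / κ * (8 + 4 * (κ * s) + (κ * s) ^ 2) := by positivity
    have hq2 : s ≤ 1 / κ * (8 + 4 * (κ * s) + (κ * s) ^ 2) := by
      rw [div_mul_eq_mul_div, le_div_iff₀ hκ]
      nlinarith [sq_nonneg (κ * s)]
    refine ⟨?_, ?_, ?_⟩
    · unfold hB
      rw [abs_of_pos (by positivity)]
      exact hbase _ (by nlinarith [sq_nonneg (κ * s)])
    · unfold hB1
      have h1 : s * |(1 / s - κ) * exp (-κ * s)| = |1 - κ * s| * exp (-κ * s) := by
        rw [abs_mul, abs_of_pos he]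
        have : |1 / s - κ| = |1 - κ * s| / s := by
          rw [← abs_of_pos hs, ← abs_div, abs_of_pos hs]
          congr 1
          field_simp
        rw [this]
        field_simp
      rw [h1]
      apply hbase
      have : |1 - κ * s| ≤ 1 + κ * s := by
        rw [abs_le]; constructor <;> linarith
      nlinarith [sq_nonneg (κ * s)]
    · unfold hB2
      have h1 : s ^ 3 * |(-1 / s ^ 3 - κ / s ^ 2 + κ ^ 2 / s) * exp (-κ * s)|
          = |-1 - κ * s + κ ^ 2 * s ^ 2| * exp (-κ * s) := by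
        rw [abs_mul, abs_of_pos he]
        have h3 : 0 < s ^ 3 := by positivity
        have : |(-1 / s ^ 3 - κ / s ^ 2 + κ ^ 2 / s)| = |-1 - κ * s + κ ^ 2 * s ^ 2| / s ^ 3 := by
          rw [← abs_of_pos h3, ← abs_div, abs_of_pos h3]
          congr 1
          field_simp
        rw [this]
        field_simp
      rw [h1]
      apply hbase
      have : |-1 - κ * s + κ ^ 2 * s ^ 2| ≤ 1 + κ * s + (κ * s) ^ 2 := by
        rw [abs_le]
        have := sq_nonneg (κ * s)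
        constructor <;> nlinarith
      nlinarith [sq_nonneg (κ * s)]

end

end Vale.Agent.P363.H849
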