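import Vale.Agent.P363.H849.Space
import Vale.Agent.P363.H979.PolyDenseL2

/-! Hydrogen: the codimension five inequality, and the min-max step. -/

namespace Vale.Agent.P363.H849

open MeasureTheory Set Real Filter Topology
open scoped ENNReal ContDiff
open Vale.Agent.P363.R.Sob (IsWD Test)

noncomputable section

/-- the flag in `H¹` -/
def Wn {κ : ℝ} (hκ : 0 < κ) (n : ℕ) : Submodule ℝ H1 := (Un n).map (Phi hκ)

theorem Wn_mono {κ : ℝ} (hκ : 0 < κ) : Monotone (Wn hκ) := fun _ _ h =>
  Submodule.map_mono (Un_mono h)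

instance Un_fin (n : ℕ) : FiniteDimensional ℝ (Un n) := by
  unfold Un
  have h1 : (Pn n).FG := (Submodule.fg_iff_finiteDimensional _).2 (Pn_fin n)
  have h2 : (Pn (n - 1)).FG := (Submodule.fg_iff_finiteDimensional _).2 (Pn_fin (n - 1))
  exact (Submodule.fg_iff_finiteDimensional _).1 (h1.prod h2)

instance Wn_fin {κ : ℝ} (hκ : 0 < κ) (n : ℕ) : FiniteDimensional ℝ (Wn hκ n) := by
  unfold Wn
  infer_instance

theorem Wn_def (HP : HardyInt) {κ : ℝ} (hκ : 0 < κ) (n : ℕ) :
    ∀ w ∈ Wn hκ n, bc HP w w = 0 → w = 0 := by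
  rintro w ⟨u, hu, rfl⟩ h
  have h1 : (fun x => wv κ u x * wv κ u x / ‖x‖) =ᵐ[volume] 0 := by
    rw [← integral_eq_zero_iff_of_nonneg]
    · exact h
    · intro x; exact div_nonneg (mul_self_nonneg _) (norm_nonneg _)
    · exact bc_integrable HP (Phi hκ u) (Phi hκ u)
  have h2 : wv κ u =ᵐ[volume] fun _ => (0 : ℝ) := by
    filter_upwards [h1, ae_ne_zero] with x hx hx0
    have hn : ‖x‖ ≠ 0 := norm_ne_zero_iff.2 hx0
    simp only [Pi.zero_apply, div_eq_zero_iff, mul_self_eq_zero, hn, or_false] at hx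
    exact hx
  have h3 : wv κ u = fun _ => (0 : ℝ) := by
    have := (wv_continuous κ u).ae_eq_iff_eq (μ := volume) (continuous_const (y := (0 : ℝ)))
    exact this.1 h2
  apply Subtype.ext
  apply Prod.ext
  · funext x
    rw [Phi_fst, h3]; rfl
  · funext k x
    rw [Phi_snd]
    show wg κ u k x = 0
    by_cases hx : x = 0
    · rw [wg, if_pos hx]
    · rw [← wv_fderiv hκ u k hx, h3]
      simp

theorem mem_Pn_totalDegree (p : Poly) : p ∈ Pn (p.totalDegree + 1) := by
  unfold Pn
  rw [MvPolynomial.mem_restrictSupport_iff]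
  intro m hm
  have := MvPolynomial.le_totalDegree hm
  have h2 : m.degree = m.sum fun _ e => e := rfl
  show m.degree < _
  omega

/-- the form `½(∇f,∇g) + ½κ²(f,g)` -/
def aform (κ : ℝ) : H1 →ₗ[ℝ] H1 →ₗ[ℝ] ℝ := (1 / 2 : ℝ) • dir + (1 / 2 * κ ^ 2 : ℝ) • ip

theorem aform_apply (κ : ℝ) (u w : H1) :
    aform κ u w = 1 / 2 * dir u w + 1 / 2 * κ ^ 2 * ip u w := by
  simp [aform]

/-- **Sturmian gap**. -/
theorem sturm_gap (HP : HardyInt) {κ : ℝ} (hκ : 0 < κ) (f : H1)
    (h0 : bc HP f (Phi hκ (1, 0)) = 0) (hX : ∀ i, bc HP f (Phi hκ (MvPolynomial.X i, 0)) = 0)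
    (h1 : bc HP f (Phi hκ (0, 1)) = 0) :
    κ * 3 * bc HP f f ≤ aform κ f f := by
  have hf : ∀ w ∈ Wn hκ 2, bc HP f w = 0 := by
    rintro w ⟨u, hu, rfl⟩
    obtain ⟨p, q⟩ := u
    have hp : p ∈ Pn 2 := hu.1
    have hq : q ∈ Pn 1 := hu.2
    have e : Phi hκ (p, q) = Phi hκ (p, 0) + Phi hκ (0, q) := by
      rw [← map_add]; simp
    rw [e, map_add]
    have e1 : bc HP f (Phi hκ (p, 0)) = 0 := by
      refine mem_Pn_two (C := fun p => bc HP f (Phi hκ (p, 0)) = 0) ?_ ?_ h0 hX hp
      · intro p q hp hq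
        have : ((p + q, 0) : Poly × Poly) = (p, 0) + (q, 0) := by simp
        rw [this, map_add, map_add, hp, hq, add_zero]
      · intro a p hp
        have : ((a • p, 0) : Poly × Poly) = a • (p, 0) := by simp
        rw [this, map_smul, map_smul, hp, smul_zero]
    have e2 : bc HP f (Phi hκ (0, q)) = 0 := by
      refine mem_Pn_one (C := fun q => bc HP f (Phi hκ (0, q)) = 0) ?_ ?_ h1 hq
      · intro p q hp hq
        have : ((0, p + q) : Poly × Poly) = (0, p) + (0, q) := by simp
        rw [this, map_add, map_add, hp, hq, add_zero]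
      · intro a p hp
        have : ((0, a • p) : Poly × Poly) = a • (0, p) := by simp
        rw [this, map_smul, map_smul, hp, smul_zero]
    rw [e1, e2, add_zero]
  have key := flag_gap (aform κ) (bc HP) ?_ (bc_symm HP) ?_ (bc_nonneg HP) (Wn hκ) (Wn_fin hκ)
    (Wn_mono hκ) (Wn_def HP hκ) κ hκ.le ?_ 2 f hf ?_
  · have : κ * ((2 : ℕ) + 1) * bc HP f f = κ * 3 * bc HP f f := by push_cast; ring
    rw [← this]
    exact key
  · intro u v
    rw [aform_apply, aform_apply, dir_symm, ip_symm]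
  · intro u
    rw [aform_apply]
    have h1 := dir_nonneg u
    have h2 := ip_nonneg u
    positivity
  · rintro n w ⟨u, hu, rfl⟩
    refine ⟨Phi hκ (Kop κ u), fun g => ?_, ?_⟩
    · rw [aform_apply]
      exact K_identity HP hκ g u
    · rw [← map_smul, ← map_sub]
      exact ⟨_, Kop_mem κ n hu, rfl⟩
  · intro ε hε
    obtain ⟨p, hp⟩ := Vale.Agent.P363.H979.exists_poly_approx hκ (m1 f).1 (HP f) hε
    refine ⟨p.totalDegree + 1, Phi hκ (p, 0), ⟨(p, 0), ⟨mem_Pn_totalDegree p,
      (Pn _).zero_mem⟩, rfl⟩, ?_⟩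
    refine le_of_eq_of_le ?_ hp
    rw [bc_apply]
    apply integral_congr_ae
    filter_upwards with x
    have e : (f - Phi hκ (p, 0)).1.1 x = f.1.1 x - Vale.Agent.P363.H979.pexp κ p x := by
      simp only [Submodule.coe_sub, Prod.fst_sub, Pi.sub_apply, Phi_fst, wv, G,
        Vale.Agent.P363.H979.pexp, Vale.Agent.P363.H979.pev, ev, hA, neg_mul, map_zero, zero_mul,
        add_zero]
    rw [e, sq]

/-! ### the five eigenfunctions -/

/-- exponents -/
def kap : Fin 5 → ℝ := ![1, 1 / 2, 1 / 2, 1 / 2, 1 / 2]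

theorem kap_pos : ∀ i, 0 < kap i := by
  intro i; fin_cases i <;> simp [kap]

/-- polynomials -/
def pol : Fin 5 → Poly × Poly :=
  ![(1, 0), (MvPolynomial.C 2, -1), (MvPolynomial.X 0, 0), (MvPolynomial.X 1, 0),
    (MvPolynomial.X 2, 0)]

theorem Kop_pol (i : Fin 5) : Kop (kap i) (pol i) = pol i := by
  have hX : ∀ j : Fin 3, Kop (1 / 2) ((MvPolynomial.X j : Poly), 0) = (MvPolynomial.X j, 0) := by
    intro j
    have h1 : eul (MvPolynomial.X j) = MvPolynomial.X j := by
      rw [MvPolynomial.X, eul_monomial, Finsupp.degree_single]; simp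
    have h2 : lap (MvPolynomial.X j) = 0 := by
      simp only [lap, MvPolynomial.pderiv_X]
      apply Finset.sum_eq_zero
      intro k _
      by_cases h : j = k
      · subst h; simp
      · simp [h]
    apply Prod.ext
    · simp only [Kop, h1]
      simp only [eul, lap]
      simp
      rw [← two_smul ℝ, smul_smul]; norm_num
    · simp only [Kop, h2]
      simp [eul]
  fin_cases i
  · apply Prod.ext
    · simp [Kop, kap, pol, eul, lap]
    · simp [Kop, kap, pol, eul, lap]
  · apply Prod.ext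
    · show ((1 / 2 : ℝ) • (eul (MvPolynomial.C 2) + MvPolynomial.C 2)
        - (eul (-1) + -1) - (1 / 2 : ℝ) • (rsq * lap (-1)) : Poly) = MvPolynomial.C 2
      have h1 : eul (MvPolynomial.C 2) = 0 := by simp [eul]
      have h2 : eul (-1) = 0 := by simp [eul]
      have h3 : lap (-1) = 0 := by simp [lap]
      rw [h1, h2, h3]
      have h4 : (MvPolynomial.C 2 : Poly) = 2 := by rw [map_ofNat]
      rw [h4]
      have h5 : (1 / 2 : ℝ) • (0 + 2 : Poly) = 1 := by
        rw [zero_add, ← h4, MvPolynomial.smul_eq_C_mul, ← map_mul]; norm_num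
      rw [h5]
      simp
      norm_num
    · show (-((1 / 2 : ℝ) • lap (MvPolynomial.C 2)) + (1 / 2 : ℝ) • (eul (-1) + (2 : ℝ) • (-1)) : Poly)
        = -1
      have h2 : eul (-1) = 0 := by simp [eul]
      have h3 : lap (MvPolynomial.C 2) = 0 := by simp [lap]
      rw [h2, h3, zero_add, smul_smul]
      simp
  · exact hX 0
  · exact hX 1
  · exact hX 2

/-- the five eigenfunctions as elements of `H¹` -/
def orbH (i : Fin 5) : H1 := Phi (kap_pos i) (pol i)

/-- The shifted hydrogen form. -/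
def Qf (HP : HardyInt) : H1 →ₗ[ℝ] H1 →ₗ[ℝ] ℝ :=
  (1 / 2 : ℝ) • dir + (1 / 18 : ℝ) • ip - bc HP

theorem Qf_apply (HP : HardyInt) (u w : H1) :
    Qf HP u w = 1 / 2 * dir u w + 1 / 18 * ip u w - bc HP u w := by
  simp [Qf]

theorem Qf_orb (HP : HardyInt) (u : H1) (i : Fin 5) :
    Qf HP u (orbH i) = (1 / 18 - (kap i) ^ 2 / 2) * ip u (orbH i) := by
  have h := K_identity HP (kap_pos i) u (pol i)
  rw [Kop_pol] at h
  rw [Qf_apply]
  unfold orbH
  linarith

/-- Gram matrix statement of the five functions -/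
def GramOK : Prop := ∀ i j, ip (orbH i) (orbH j) = if i = j then (if i = 0 then π else 32 * π) else 0

theorem Qf_nonneg_of_orth (HP : HardyInt) (GO : GramOK) (f : H1) (hf : ∀ i, ip f (orbH i) = 0) :
    0 ≤ Qf HP f f := by
  have hthird : (0 : ℝ) < 1 / 3 := by norm_num
  refine nonneg_of_orth (Qf HP) ?_
    (fun i => (bc HP).flip (Phi hthird (![(1, 0), (0, 1), (MvPolynomial.X 0, 0),
      (MvPolynomial.X 1, 0), (MvPolynomial.X 2, 0)] i))) ?_ orbH ?_ f ?_
  · intro u v
    rw [Qf_apply, Qf_apply, dir_symm, ip_symm, bc_symm]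
  · intro u hu
    have := sturm_gap HP hthird u (by simpa using hu 0)
      (by intro i; fin_cases i
          · simpa using hu 2
          · simpa using hu 3
          · simpa using hu 4) (by simpa using hu 1)
    rw [aform_apply] at this
    rw [Qf_apply]
    linarith
  · intro c hc
    rw [map_sum]
    simp only [map_smul, Qf_orb, smul_eq_mul, map_sum, LinearMap.sum_apply, LinearMap.smul_apply,
      GO _ _]
    simp only [mul_ite, mul_zero, Finset.sum_ite_eq', Finset.mem_univ, if_true]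
    have hi : ∀ i, c i * ((1 / 18 - kap i ^ 2 / 2) * (if i = 0 then c i * π else c i * (32 * π)))
        ≤ 0 := by
      intro i
      have hk : 1 / 18 - kap i ^ 2 / 2 < 0 := by
        fin_cases i <;> norm_num [kap]
      have hπ := Real.pi_pos
      split_ifs
      · have : 0 ≤ c i ^ 2 * π := by positivity
        nlinarith
      · have : 0 ≤ c i ^ 2 * (32 * π) := by positivity
        nlinarith
    have hlt : ∃ i, c i * ((1 / 18 - kap i ^ 2 / 2) * (if i = 0 then c i * π else c i * (32 * π)))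
        < 0 := by
      obtain ⟨i, hi⟩ := Function.ne_iff.1 hc
      refine ⟨i, ?_⟩
      have hci : c i ≠ 0 := by simpa using hi
      have hk : 1 / 18 - kap i ^ 2 / 2 < 0 := by
        fin_cases i <;> norm_num [kap]
      have hπ := Real.pi_pos
      split_ifs
      · have : 0 < c i ^ 2 * π := by positivity
        nlinarith
      · have : 0 < c i ^ 2 * (32 * π) := by positivity
        nlinarith
    obtain ⟨i, hlt⟩ := hlt
    refine lt_of_lt_of_eq (Finset.sum_lt_sum (fun j _ => ?_) ⟨i, Finset.mem_univ i, ?_⟩)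
      Finset.sum_const_zero
    · refine le_of_eq_of_le ?_ (hi j)
      split_ifs <;> ring
    · refine lt_of_eq_of_lt ?_ hlt
      split_ifs <;> ring
  · intro i
    rw [Qf_orb, hf, mul_zero]

/-- square norms of the five functions -/
def nrm (i : Fin 5) : ℝ := if i = 0 then π else 32 * π

theorem nrm_pos (i : Fin 5) : 0 < nrm i := by
  unfold nrm
  have := Real.pi_pos
  split_ifs <;> positivity

/-- The gap inequality, real form. -/
theorem real_gap (HP : HardyInt) (GO : GramOK) (f : H1) :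
    ∑ i, (1 / 18 - (kap i) ^ 2 / 2) * (ip f (orbH i) ^ 2 / nrm i) ≤ Qf HP f f := by
  have hsymm : ∀ u v, Qf HP u v = Qf HP v u := by
    intro u v
    rw [Qf_apply, Qf_apply, dir_symm, ip_symm, bc_symm]
  set s : H1 := ∑ i, (ip f (orbH i) / nrm i) • orbH i with hs
  have GO' : ∀ i j, ip (orbH i) (orbH j) = if i = j then nrm i else 0 := by
    intro i j
    rw [GO i j]; rfl
  have h1 : ∀ j, ip s (orbH j) = ip f (orbH j) := by
    intro j
    rw [hs, map_sum, LinearMap.sum_apply]
    simp only [map_smul, LinearMap.smul_apply, smul_eq_mul, GO', mul_ite, mul_zero,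
      Finset.sum_ite_eq', Finset.mem_univ, if_true]
    have := (nrm_pos j).ne'
    field_simp
  have h2 : ∀ j, ip (f - s) (orbH j) = 0 := by
    intro j
    rw [map_sub, LinearMap.sub_apply, h1, sub_self]
  have h3 := Qf_nonneg_of_orth HP GO (f - s) h2
  have h4 : Qf HP (f - s) s = 0 := by
    conv_lhs => rw [hs]
    rw [map_sum]
    apply Finset.sum_eq_zero
    intro j _
    rw [map_smul, Qf_orb, h2, mul_zero, smul_zero]
  have h5 : Qf HP s s = ∑ i, (1 / 18 - (kap i) ^ 2 / 2) * (ip f (orbH i) ^ 2 / nrm i) := by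
    conv_lhs => rw [hs]
    rw [map_sum, ← hs]
    apply Finset.sum_congr rfl
    intro j _
    rw [map_smul, Qf_orb, h1, smul_eq_mul]
    ring
  have h6 : Qf HP f f = Qf HP (f - s) (f - s) + Qf HP s s := by
    have e : f = (f - s) + s := by abel
    conv_lhs => rw [e]
    simp only [map_add, LinearMap.add_apply]
    rw [h4, hsymm s (f - s), h4]
    ring
  rw [h6, h5]
  linarith

end

end Vale.Agent.P363.H849
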