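import Vale.Agent.P363.H849.Orbitals
import Vale.Agent.P363.H942.B7.Hyd
import Vale.Agent.P363.R2.h518.StarFinal
import Vale.Agent.P363.H382.Energy

/-! Instances of the one-body facts used by block B7. -/

namespace Vale.Agent.P363.H849

open MeasureTheory Set Real Filter Topology
open scoped ENNReal ContDiff
open Vale.Agent.P363.R.Sob (IsWD Test)
open Vale.Agent.P363.R.Top (orb orbE pot)
open Vale.Agent.P363.Stmt (ElectronState energy density sumPotential Conf)

noncomputable section

theorem hyd : Vale.Agent.P363.H942.Hyd orbG where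
  h1 i := ⟨orb_memLp i, orbG_memLp i, orb_isWD i⟩
  orth := orb_orthonormal
  eig i h k H := by
    have h1 := orb_eigen_real H.mem H.gmem H.wd i
    have e : ∫ x, ∑ l, orbG i l x * k l x = ∑ l, ∫ x, orbG i l x * k l x :=
      integral_finsetSum _ fun l _ => (orbG_memLp i l).integrable_mul (H.gmem l)
    rw [e]; exact h1
  pot_int f g H := hardyInt ⟨(f, g), H.mem, H.gmem, H.wd⟩
  gap f g H := by
    have h1 := hydrogen_gap_real H.mem H.gmem H.wd
    have e : ∫ x, ∑ l, g l x ^ 2 = ∑ l, ∫ x, g l x ^ 2 :=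
      integral_finsetSum _ fun l _ => (H.gmem l).integrable_sq
    rw [e]; exact h1
  hardy := by
    refine ⟨8, fun f g H => ?_⟩
    have h := (Vale.Agent.P363.R.Sob.coulomb_le (μ := (volume : Measure R3))
      (ContinuousLinearMap.id ℝ R3) 0 e3 (fun k => rfl) H.mem H.gmem H.wd).2 (1 / 8) (by norm_num)
    have e : ∫ x, ∑ l, g l x ^ 2 = ∑ l, ∫ x, g l x ^ 2 :=
      integral_finsetSum _ fun l _ => (H.gmem l).integrable_sq
    rw [e]
    simp only [ContinuousLinearMap.id_apply, sub_zero, Real.norm_eq_abs, sq_abs] at h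
    norm_num at h ⊢
    exact h

theorem energyPot0 : Vale.Agent.P363.H942.EnergyPot0 := by
  intro Ψ
  have hpot : (pot 0 : Conf 5 → ℝ) = sumPotential (fun x => -(1 / ‖x‖)) := by
    funext x
    simp [pot, sumPotential]
  have hint : ∀ s, Integrable (fun x : Conf 5 => (-(1 / ‖x 0‖)) * ‖Ψ.amp s x‖ ^ 2) := by
    intro s
    have h := (Vale.Agent.P363.H518.integrable_inv_norm Ψ s 0).neg
    refine h.congr (Eventually.of_forall fun x => ?_)
    simp
  have h1 := Vale.Agent.P363.H382.integrable_mul_density Ψ (fun x => -(1 / ‖x‖)) hint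
  have h2 := Vale.Agent.P363.H382.energy_sumPotential Ψ (fun x => -(1 / ‖x‖)) hint
  constructor
  · refine h1.neg.congr (Eventually.of_forall fun x => ?_)
    simp only [Pi.neg_apply]; ring
  · rw [hpot, h2]
    have e : ∫ r, (fun x : R3 => -(1 / ‖x‖)) r * density Ψ r = -∫ x, density Ψ x / ‖x‖ := by
      rw [← integral_neg]
      congr 1; funext x; ring
    rw [e]
    rfl

end

end Vale.Agent.P363.H849
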