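import Vale.Agent.P363.H849.Orbitals
import Vale.Agent.P363.R2.h518.Star

/-! The hydrogen inequality in helper518's form. -/

namespace Vale.Agent.P363.H849

open MeasureTheory Set Real Filter Topology
open scoped ENNReal ContDiff ComplexConjugate
open Vale.Agent.P363.R.Top (orb orbE)
open Vale.Agent.P363.H518 (coef corb Hydro)

noncomputable section

theorem coef_corb (a : Fin 5) (f : R3 → ℂ) :
    coef volume (corb a) f = ∫ x, (orb a x : ℂ) * f x := by
  unfold coef corb
  congr 1
  funext x
  rw [Complex.conj_ofReal]

theorem coef_corb_corb (a b : Fin 5) :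
    coef volume (corb a) (corb b) = if a = b then 1 else 0 := by
  rw [coef_corb]
  have h := orb_orthonormal a b
  have e : ∀ x, (orb a x : ℂ) * corb b x = ((orb a x * orb b x : ℝ) : ℂ) := by
    intro x; simp [corb]
  simp_rw [e]
  rw [integral_complex_ofReal, h]
  split_ifs <;> simp

/-- Block B in the form used by block B2. -/
theorem hydro : Hydro where
  mem a := (orb_memLp a).ofReal
  one a := by rw [coef_corb_corb, if_pos rfl]
  orth a b h := by rw [coef_corb_corb, if_neg h]
  ineq f g hf hg hW := by
    have h := hydrogen_gap hf hg hW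
    simp only [coef_corb]
    have e : ∫ x, ‖x‖⁻¹ * ‖f x‖ ^ 2 = ∫ x, ‖f x‖ ^ 2 / ‖x‖ := by
      congr 1; funext x; rw [div_eq_mul_inv, mul_comm]
    rw [e]
    exact h

end

end Vale.Agent.P363.H849
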