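import Vale.Agent.P363.H849.Ortho
import Vale.Agent.P363.R.Sob.S16
import Vale.Agent.P363.R.Top.Defs

/-! **Block B**: the hydrogen gap above the `n = 2` shell, for complex functions in `H¹(ℝ³)`. -/

namespace Vale.Agent.P363.H849

open MeasureTheory Set Real Filter Topology
open scoped ENNReal ContDiff
open Vale.Agent.P363.R.Sob (IsWD Test)
open Vale.Agent.P363.R.Top (orb orbE)

noncomputable section

theorem hardyInt : HardyInt := by
  intro u
  have h := (Vale.Agent.P363.R.Sob.coulomb_le (μ := (volume : Measure R3))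
    (ContinuousLinearMap.id ℝ R3) 0 e3 (fun k => rfl) (m1 u) (m2 u) (mW u)).1
  refine h.congr (Eventually.of_forall fun x => ?_)
  simp

/-- normalisation constants -/
def nc (i : Fin 5) : ℝ := if i = 0 then (Real.sqrt π)⁻¹ else (4 * Real.sqrt (2 * π))⁻¹

theorem orb_eq (i : Fin 5) (x : R3) : orb i x = nc i * (orbH i).1.1 x := by
  have v : (orbH i).1.1 x = wv (kap i) (pol i) x := rfl
  rw [v]
  fin_cases i
  · show Real.exp (-‖x‖) / Real.sqrt Real.pi = _ * wv (kap 0) (pol 0) x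
    rw [wv_pol_0]
    simp [nc]; ring
  · show (2 - ‖x‖) * Real.exp (-‖x‖ / 2) / (4 * Real.sqrt (2 * Real.pi)) = _ * wv (kap 1) (pol 1) x
    rw [wv_pol_1, show -(1 / 2) * ‖x‖ = -‖x‖ / 2 by ring]
    simp only [nc]
    norm_num
    ring
  · show x 0 * Real.exp (-‖x‖ / 2) / (4 * Real.sqrt (2 * Real.pi))
      = nc 2 * wv (1 / 2) (MvPolynomial.X 0, 0) x
    rw [wv_pol_X, show -(1 / 2) * ‖x‖ = -‖x‖ / 2 by ring]
    rw [nc, if_neg (by decide)]
    ring
  · show x 1 * Real.exp (-‖x‖ / 2) / (4 * Real.sqrt (2 * Real.pi))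
      = nc 3 * wv (1 / 2) (MvPolynomial.X 1, 0) x
    rw [wv_pol_X, show -(1 / 2) * ‖x‖ = -‖x‖ / 2 by ring]
    rw [nc, if_neg (by decide)]
    ring
  · show x 2 * Real.exp (-‖x‖ / 2) / (4 * Real.sqrt (2 * Real.pi))
      = nc 4 * wv (1 / 2) (MvPolynomial.X 2, 0) x
    rw [wv_pol_X, show -(1 / 2) * ‖x‖ = -‖x‖ / 2 by ring]
    rw [nc, if_neg (by decide)]
    ring

theorem nc_sq (i : Fin 5) : nc i ^ 2 * nrm i = 1 := by
  have hπ := Real.pi_pos
  unfold nc nrm
  split_ifs
  · rw [inv_pow, Real.sq_sqrt hπ.le]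
    field_simp
  · rw [inv_pow, mul_pow, Real.sq_sqrt (by positivity)]
    field_simp
    norm_num

theorem orbE_eq (i : Fin 5) : orbE i = -(kap i) ^ 2 / 2 := by
  fin_cases i <;> norm_num [orbE, kap, Fin.ext_iff]

theorem orb_memLp (i : Fin 5) : MemLp (orb i) 2 := by
  have h := (m1 (orbH i)).const_mul (nc i)
  refine h.congr_norm ?_ ?_
  · have e : orb i = fun x => nc i * (orbH i).1.1 x := by funext x; exact orb_eq i x
    rw [e]; exact h.1
  · exact Eventually.of_forall fun x => by rw [orb_eq]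

theorem ip_orb (f : H1) (i : Fin 5) : ∫ x, orb i x * f.1.1 x = nc i * ip f (orbH i) := by
  rw [ip_apply, ← integral_const_mul]
  congr 1; funext x
  rw [orb_eq]; ring

/-- orthonormality of the orbitals -/
theorem orb_orthonormal (i j : Fin 5) : ∫ x, orb i x * orb j x = if i = j then 1 else 0 := by
  have h : ∫ x, orb i x * orb j x = nc i * nc j * ip (orbH i) (orbH j) := by
    rw [ip_apply, ← integral_const_mul]
    congr 1; funext x
    rw [orb_eq, orb_eq]; ring
  rw [h, gramOK]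
  split_ifs with h1 h2
  · subst h2; subst h1
    have := nc_sq 0
    simp only [nrm, if_true] at this
    rw [← this]; ring
  · subst h1
    have := nc_sq i
    simp only [nrm, if_neg h2] at this
    rw [← this]; ring
  · ring

/-- **Hydrogen gap, real functions**. -/
theorem hydrogen_gap_real {f : R3 → ℝ} {g : Fin 3 → R3 → ℝ} (hf : MemLp f 2)
    (hg : ∀ k, MemLp (g k) 2) (hW : ∀ k, IsWD volume (e3 k) f (g k)) :
    (∑ i, orbE i * (∫ x, orb i x * f x) ^ 2)
      - (1 / 18) * ((∫ x, f x ^ 2) - ∑ i, (∫ x, orb i x * f x) ^ 2)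
      ≤ (1 / 2) * (∑ k, ∫ x, g k x ^ 2) - ∫ x, f x ^ 2 / ‖x‖ := by
  set u : H1 := ⟨(f, g), hf, hg, hW⟩ with hu
  have h := real_gap hardyInt gramOK u
  have e1 : ∀ i, (ip u (orbH i)) ^ 2 / nrm i = (∫ x, orb i x * f x) ^ 2 := by
    intro i
    have h1 : ∫ x, orb i x * f x = nc i * ip u (orbH i) := ip_orb u i
    have h2 := nc_sq i
    have h3 := nrm_pos i
    rw [h1, mul_pow, div_eq_iff h3.ne']
    calc (ip u (orbH i)) ^ 2 = (nc i ^ 2 * nrm i) * (ip u (orbH i)) ^ 2 := by rw [h2, one_mul]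
      _ = _ := by ring
  have e2 : Qf hardyInt u u = 1 / 2 * (∑ k, ∫ x, g k x ^ 2) + 1 / 18 * (∫ x, f x ^ 2)
      - ∫ x, f x ^ 2 / ‖x‖ := by
    rw [Qf_apply, dir_apply, ip_apply, bc_apply]
    simp only [hu, sq]
  rw [e2] at h
  simp only [e1] at h
  have e3 : ∑ i, (1 / 18 - kap i ^ 2 / 2) * (∫ x, orb i x * f x) ^ 2
      = (∑ i, orbE i * (∫ x, orb i x * f x) ^ 2) + 1 / 18 * ∑ i, (∫ x, orb i x * f x) ^ 2 := by
    rw [Finset.mul_sum, ← Finset.sum_add_distrib]
    apply Finset.sum_congr rfl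
    intro i _
    rw [orbE_eq]; ring
  rw [e3] at h
  linarith

theorem memLp_re {f : R3 → ℂ} (h : MemLp f 2) : MemLp (fun x => (f x).re) 2 := h.re
theorem memLp_im {f : R3 → ℂ} (h : MemLp f 2) : MemLp (fun x => (f x).im) 2 := h.im

theorem isWD_re {v : R3} {f g : R3 → ℂ} (hf : MemLp f 2) (hg : MemLp g 2)
    (h : IsWD volume v f g) : IsWD volume v (fun x => (f x).re) (fun x => (g x).re) :=
  h.clm_comp Complex.reCLM
    (fun _ hφ => hφ.integrable_smul (hf.locallyIntegrable (by norm_num)))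
    (fun _ hφ => hφ.integrable_smul (hg.locallyIntegrable (by norm_num)))

theorem isWD_im {v : R3} {f g : R3 → ℂ} (hf : MemLp f 2) (hg : MemLp g 2)
    (h : IsWD volume v f g) : IsWD volume v (fun x => (f x).im) (fun x => (g x).im) :=
  h.clm_comp Complex.imCLM
    (fun _ hφ => hφ.integrable_smul (hf.locallyIntegrable (by norm_num)))
    (fun _ hφ => hφ.integrable_smul (hg.locallyIntegrable (by norm_num)))

theorem normSq_split (z : ℂ) : ‖z‖ ^ 2 = z.re ^ 2 + z.im ^ 2 := by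
  rw [← Complex.normSq_eq_norm_sq, Complex.normSq_apply]; ring

theorem integral_normSq_split {f : R3 → ℂ} (h : MemLp f 2) :
    ∫ x, ‖f x‖ ^ 2 = (∫ x, (f x).re ^ 2) + ∫ x, (f x).im ^ 2 := by
  rw [← integral_add (memLp_re h).integrable_sq (memLp_im h).integrable_sq]
  congr 1; funext x; exact normSq_split _

/-- **Hydrogen gap** for complex functions: the target of block B. -/
theorem hydrogen_gap {f : R3 → ℂ} {g : Fin 3 → R3 → ℂ} (hf : MemLp f 2)
    (hg : ∀ k, MemLp (g k) 2) (hW : ∀ k, IsWD volume (e3 k) f (g k)) :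
    (∑ i, orbE i * ‖∫ x, (orb i x : ℂ) * f x‖ ^ 2)
      - (1 / 18) * ((∫ x, ‖f x‖ ^ 2) - ∑ i, ‖∫ x, (orb i x : ℂ) * f x‖ ^ 2)
      ≤ (1 / 2) * (∑ k, ∫ x, ‖g k x‖ ^ 2) - ∫ x, ‖f x‖ ^ 2 / ‖x‖ := by
  have hr := hydrogen_gap_real (memLp_re hf) (fun k => memLp_re (hg k))
    (fun k => isWD_re hf (hg k) (hW k))
  have hi := hydrogen_gap_real (memLp_im hf) (fun k => memLp_im (hg k))
    (fun k => isWD_im hf (hg k) (hW k))
  have e1 : ∀ i, ‖∫ x, (orb i x : ℂ) * f x‖ ^ 2
      = (∫ x, orb i x * (f x).re) ^ 2 + (∫ x, orb i x * (f x).im) ^ 2 := by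
    intro i
    have hint : Integrable (fun x => (orb i x : ℂ) * f x) :=
      ((orb_memLp i).ofReal (K := ℂ)).integrable_mul hf
    rw [normSq_split]
    congr 1
    · congr 1
      have := (Complex.reCLM.integral_comp_comm hint).symm
      simp only [Complex.reCLM_apply, Complex.mul_re, Complex.ofReal_re, Complex.ofReal_im,
        zero_mul, sub_zero] at this
      exact this
    · congr 1
      have := (Complex.imCLM.integral_comp_comm hint).symm
      simp only [Complex.imCLM_apply, Complex.mul_im, Complex.ofReal_re, Complex.ofReal_im,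
        zero_mul, add_zero] at this
      exact this
  have hHre : Integrable (fun x => (f x).re ^ 2 / ‖x‖) :=
    hardyInt ⟨(fun x => (f x).re, fun k x => (g k x).re), memLp_re hf, fun k => memLp_re (hg k),
      fun k => isWD_re hf (hg k) (hW k)⟩
  have hHim : Integrable (fun x => (f x).im ^ 2 / ‖x‖) :=
    hardyInt ⟨(fun x => (f x).im, fun k x => (g k x).im), memLp_im hf, fun k => memLp_im (hg k),
      fun k => isWD_im hf (hg k) (hW k)⟩
  have e2 : ∫ x, ‖f x‖ ^ 2 / ‖x‖ = (∫ x, (f x).re ^ 2 / ‖x‖) + ∫ x, (f x).im ^ 2 / ‖x‖ := by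
    rw [← integral_add hHre hHim]
    congr 1; funext x
    rw [normSq_split, add_div]
  simp only [e1, e2, integral_normSq_split hf, fun k => integral_normSq_split (hg k),
    Finset.sum_add_distrib, mul_add]
  linarith

end

end Vale.Agent.P363.H849
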