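import Vale.Agent.P363.MathlibUsed

/-! Pure linear algebra for the hydrogen gap. -/

namespace Vale.Agent.P363.H849

open Module

/-- Existence of the `b`-orthogonal projection on a finite-dimensional subspace on which `b` is
positive definite. -/
theorem exists_proj {V : Type*} [AddCommGroup V] [Module ℝ V] (b : V →ₗ[ℝ] V →ₗ[ℝ] ℝ)
    (W : Submodule ℝ V) [FiniteDimensional ℝ W]
    (hdef : ∀ w ∈ W, b w w = 0 → w = 0) (f : V) :
    ∃ w ∈ W, ∀ w' ∈ W, b (f - w) w' = 0 := by
  classical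
  let B : W →ₗ[ℝ] (Dual ℝ W) := (b.compl₁₂ W.subtype W.subtype)
  have hB : ∀ u v : W, B u v = b u v := fun u v => rfl
  have hinj : Function.Injective B := by
    rw [← LinearMap.ker_eq_bot, LinearMap.ker_eq_bot']
    intro u hu
    have h1 : B u u = 0 := by rw [hu]; rfl
    rw [hB] at h1
    have := hdef u u.2 h1
    exact Subtype.ext this
  have hsurj : Function.Surjective B := by
    have hfr : finrank ℝ W = finrank ℝ (Dual ℝ W) := (Subspace.dual_finrank_eq).symm
    exact (LinearMap.injective_iff_surjective_of_finrank_eq_finrank hfr).1 hinj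
  obtain ⟨w, hw⟩ := hsurj ((b f).comp W.subtype)
  refine ⟨w, w.2, fun w' hw' => ?_⟩
  have h2 : B w ⟨w', hw'⟩ = b f w' := by rw [hw]; rfl
  rw [hB] at h2
  simp only [map_sub, LinearMap.sub_apply]
  rw [← h2]
  simp

/-- Flag lemma, finite level. -/
theorem flag_level {V : Type*} [AddCommGroup V] [Module ℝ V] (a b : V →ₗ[ℝ] V →ₗ[ℝ] ℝ)
    (ha : ∀ u v, a u v = a v u) (hb : ∀ u v, b u v = b v u)
    (hb0 : ∀ u, 0 ≤ b u u)
    (W : ℕ → Submodule ℝ V) (hfin : ∀ n, FiniteDimensional ℝ (W n)) (hmono : Monotone W)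
    (hdef : ∀ n, ∀ w ∈ W n, b w w = 0 → w = 0) (κ : ℝ) (hκ : 0 ≤ κ)
    (hK : ∀ n, ∀ w ∈ W (n + 1), ∃ w' , (∀ f, a f w = b f w') ∧ w' - (κ * (n + 1)) • w ∈ W n)
    (m : ℕ) (n : ℕ) :
    ∀ g ∈ W (m + n), (∀ w ∈ W m, b g w = 0) → (κ * (m + 1)) * b g g ≤ a g g := by
  have hinv : ∀ n, ∀ w ∈ W n, ∃ w' ∈ W n, (∀ f, a f w = b f w') ∨ n = 0 := by
    intro n w hw
    cases n with
    | zero => exact ⟨0, Submodule.zero_mem _, Or.inr rfl⟩
    | succ n =>
      obtain ⟨w', h1, h2⟩ := hK n w hw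
      refine ⟨w', ?_, Or.inl h1⟩
      have := (W (n + 1)).add_mem (hmono (Nat.le_succ n) h2)
        ((W (n + 1)).smul_mem (κ * (n + 1)) hw)
      simpa using this
  induction n with
  | zero =>
    intro g hg hperp
    have h0 : b g g = 0 := hperp g hg
    have hg0 : g = 0 := hdef _ g hg h0
    subst hg0
    simp
  | succ n ih =>
    intro g hg hperp
    have hg' : g ∈ W (m + n + 1) := hg
    have := hfin (m + n)
    obtain ⟨g₀, hg₀, hproj⟩ := exists_proj b (W (m + n)) (hdef (m + n)) g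
    set c := g - g₀ with hc
    have hcW : c ∈ W (m + n + 1) := by
      rw [hc]
      exact (W (m + n + 1)).sub_mem hg' (hmono (Nat.le_succ _) hg₀)
    obtain ⟨c', hc1, hc2⟩ := hK (m + n) c hcW
    -- `c' - κ (m+n+1) c` is orthogonal to `W (m+n)`
    have horth : ∀ w ∈ W (m + n), b (c' - (κ * ((m + n : ℕ) + 1)) • c) w = 0 := by
      intro w hw
      have h1 : b w c' = a w c := (hc1 w).symm
      by_cases hmn : m + n = 0
      · -- then `W (m+n)` may be nonzero only formally: use the level `1` relation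
        obtain ⟨w', hw1, hw2⟩ := hK (m + n) w (hmono (Nat.le_succ _) hw)
        have h3 : a c w = b c w' := hw1 c
        have h4 : w' ∈ W (m + n) := by
          have := (W (m + n)).add_mem hw2 ((W (m + n)).smul_mem (κ * ((m + n : ℕ) + 1)) hw)
          simpa using this
        have h5 : b c w' = 0 := hproj w' h4
        have h6 : b c w = 0 := hproj w hw
        rw [map_sub, LinearMap.sub_apply, map_smul, LinearMap.smul_apply, h6, hb c' w, h1, ha w c,
          h3, h5]
        simp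
      · obtain ⟨w', hw'W, hw'⟩ := hinv (m + n) w hw
        rcases hw' with hw' | hw'
        · have h3 : a c w = b c w' := hw' c
          have h5 : b c w' = 0 := hproj w' hw'W
          have h6 : b c w = 0 := hproj w hw
          rw [map_sub, LinearMap.sub_apply, map_smul, LinearMap.smul_apply, h6, hb c' w, h1,
            ha w c, h3, h5]
          simp
        · exact absurd hw' hmn
    have hzero : c' - (κ * ((m + n : ℕ) + 1)) • c = 0 :=
      hdef (m + n) _ hc2 (horth _ hc2)
    have hc'eq : c' = (κ * ((m + n : ℕ) + 1)) • c := sub_eq_zero.1 hzero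
    have hg₀c : b g₀ c = 0 := by rw [hb]; exact hproj g₀ hg₀
    have haco : a g₀ c = 0 := by
      rw [hc1, hc'eq, map_smul, hg₀c]; simp
    have hacc : a c c = (κ * ((m + n : ℕ) + 1)) * b c c := by
      rw [hc1, hc'eq, map_smul]; rfl
    have hgdec : g = g₀ + c := by rw [hc]; abel
    have hagg : a g g = a g₀ g₀ + a c c := by
      rw [hgdec]
      simp only [map_add, LinearMap.add_apply]
      rw [haco, ha c g₀, haco]; ring
    have hbgg : b g g = b g₀ g₀ + b c c := by
      rw [hgdec]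
      simp only [map_add, LinearMap.add_apply]
      rw [hg₀c, hb c g₀, hg₀c]; ring
    have hperp₀ : ∀ w ∈ W m, b g₀ w = 0 := by
      intro w hw
      have h1 : b g w = 0 := hperp w hw
      have h2 : b c w = 0 := hproj w (hmono (Nat.le_add_right m n) hw)
      have h3 : b g w = b g₀ w + b c w := by rw [hgdec]; simp
      linarith
    have hih := ih g₀ hg₀ hperp₀
    have hcc := hb0 c
    have hle : κ * (m + 1) * b c c ≤ (κ * ((m + n : ℕ) + 1)) * b c c := by
      apply mul_le_mul_of_nonneg_right _ hcc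
      apply mul_le_mul_of_nonneg_left _ hκ
      push_cast
      have : (0 : ℝ) ≤ n := Nat.cast_nonneg n
      linarith
    rw [hagg, hbgg, hacc]
    nlinarith [hih, hle]

/-- Flag lemma. -/
theorem flag_gap {V : Type*} [AddCommGroup V] [Module ℝ V] (a b : V →ₗ[ℝ] V →ₗ[ℝ] ℝ)
    (ha : ∀ u v, a u v = a v u) (hb : ∀ u v, b u v = b v u)
    (ha0 : ∀ u, 0 ≤ a u u) (hb0 : ∀ u, 0 ≤ b u u)
    (W : ℕ → Submodule ℝ V) (hfin : ∀ n, FiniteDimensional ℝ (W n)) (hmono : Monotone W)
    (hdef : ∀ n, ∀ w ∈ W n, b w w = 0 → w = 0) (κ : ℝ) (hκ : 0 ≤ κ)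
    (hK : ∀ n, ∀ w ∈ W (n + 1), ∃ w' , (∀ f, a f w = b f w') ∧ w' - (κ * (n + 1)) • w ∈ W n)
    (m : ℕ) (f : V) (hf : ∀ w ∈ W m, b f w = 0)
    (hdense : ∀ ε > 0, ∃ n, ∃ g ∈ W n, b (f - g) (f - g) ≤ ε) :
    (κ * (m + 1)) * b f f ≤ a f f := by
  have hinv : ∀ n, ∀ w ∈ W n, ∃ w' ∈ W n, (∀ f, a f w = b f w') := by
    intro n w hw
    obtain ⟨w', h1, h2⟩ := hK n w (hmono (Nat.le_succ _) hw)
    refine ⟨w', ?_, h1⟩
    have := (W n).add_mem h2 ((W n).smul_mem (κ * (n + 1)) hw)
    simpa using this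
  have key : ∀ ε > 0, (κ * (m + 1)) * (b f f - ε) ≤ a f f := by
    intro ε hε
    obtain ⟨n, g, hg, hgε⟩ := hdense ε hε
    have hgn : g ∈ W (m + n) := hmono (Nat.le_add_left n m) hg
    have := hfin (m + n)
    obtain ⟨p, hp, hproj⟩ := exists_proj b (W (m + n)) (hdef (m + n)) f
    obtain ⟨p', hp', hp'a⟩ := hinv _ p hp
    have h1 : a (f - p) p = 0 := by rw [hp'a]; exact hproj p' hp'
    have h2 : a f f = a p p + a (f - p) (f - p) := by
      have h3 : f = p + (f - p) := by abel
      conv_lhs => rw [h3]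
      simp only [map_add, LinearMap.add_apply]
      rw [h1, ha p (f - p), h1]; ring
    have h4 : b (f - p) p = 0 := hproj p hp
    have h5 : b f f = b p p + b (f - p) (f - p) := by
      have h3 : f = p + (f - p) := by abel
      conv_lhs => rw [h3]
      simp only [map_add, LinearMap.add_apply]
      rw [h4, hb p (f - p), h4]; ring
    have h6 : b (f - p) (f - p) ≤ ε := by
      have h7 : b (f - g) (f - g) = b (f - p) (f - p) + b (p - g) (p - g) := by
        have h3 : f - g = (f - p) + (p - g) := by abel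
        have h8 : b (f - p) (p - g) = 0 := hproj _ ((W (m + n)).sub_mem hp hgn)
        rw [h3]
        simp only [map_add, LinearMap.add_apply]
        rw [h8, hb (p - g) (f - p), h8]; ring
      have := hb0 (p - g)
      linarith
    have hperp : ∀ w ∈ W m, b p w = 0 := by
      intro w hw
      have h8 := hf w hw
      have h9 := hproj w (hmono (Nat.le_add_right m n) hw)
      rw [map_sub, LinearMap.sub_apply] at h9
      linarith
    have h10 := flag_level a b ha hb hb0 W hfin hmono hdef κ hκ hK m n p hp hperp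
    have h11 := ha0 (f - p)
    have h12 : (κ * (m + 1)) * (b f f - ε) ≤ (κ * (m + 1)) * b p p := by
      apply mul_le_mul_of_nonneg_left _ (by positivity)
      linarith
    linarith
  by_contra hcon
  push Not at hcon
  have hc : 0 ≤ κ * (m + 1) := by positivity
  set δ := κ * (m + 1) * b f f - a f f with hδ
  have hδ0 : 0 < δ := by rw [hδ]; linarith
  have := key (δ / (2 * (κ * (m + 1) + 1))) (by positivity)
  have h2 : κ * (m + 1) * (δ / (2 * (κ * (m + 1) + 1))) ≤ δ / 2 := by
    rw [mul_div_assoc', div_le_div_iff₀ (by positivity) (by norm_num)]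
    nlinarith
  nlinarith

/-- Min-max lemma: if the quadratic form `Q` is nonnegative on a subspace of codimension at most
`card ι`, negative definite on the span of `s : ι → V` and `f` is `Q`-orthogonal to all `s i`,
then `Q f f ≥ 0`. -/
theorem nonneg_of_orth {V ι : Type*} [Fintype ι] [AddCommGroup V] [Module ℝ V]
    (Q : V →ₗ[ℝ] V →ₗ[ℝ] ℝ) (hsymm : ∀ u v, Q u v = Q v u)
    (l : ι → V →ₗ[ℝ] ℝ) (hl : ∀ u, (∀ i, l i u = 0) → 0 ≤ Q u u)
    (s : ι → V) (hs : ∀ c : ι → ℝ, c ≠ 0 → Q (∑ i, c i • s i) (∑ i, c i • s i) < 0)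
    (f : V) (hf : ∀ i, Q f (s i) = 0) : 0 ≤ Q f f := by
  classical
  by_contra hneg
  push Not at hneg
  let L : (ℝ × (ι → ℝ)) →ₗ[ℝ] (ι → ℝ) :=
    LinearMap.pi fun i => (l i).comp
      ((LinearMap.fst ℝ ℝ (ι → ℝ)).smulRight f +
        ∑ j, ((LinearMap.proj j).comp (LinearMap.snd ℝ ℝ (ι → ℝ))).smulRight (s j))
  have hL : ∀ c i, L c i = l i (c.1 • f + ∑ j, c.2 j • s j) := by
    intro c i
    simp [L]
  have hker : LinearMap.ker L ≠ ⊥ := by
    apply LinearMap.ker_ne_bot_of_finrank_lt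
    simp [Module.finrank_prod]
  obtain ⟨c, hc, hc0⟩ := (Submodule.ne_bot_iff _).1 hker
  rw [LinearMap.mem_ker] at hc
  set u := c.1 • f + ∑ j, c.2 j • s j with hu
  have hu0 : 0 ≤ Q u u := by
    apply hl
    intro i
    rw [hu, ← hL, hc]; rfl
  have hQfs : Q f (∑ j, c.2 j • s j) = 0 := by
    rw [map_sum]
    apply Finset.sum_eq_zero
    intro j _
    rw [map_smul, hf j, smul_zero]
  have hexp : Q u u = c.1 ^ 2 * Q f f + Q (∑ j, c.2 j • s j) (∑ j, c.2 j • s j) := by
    rw [hu]
    simp only [map_add, LinearMap.add_apply, map_smul, LinearMap.smul_apply, smul_eq_mul]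
    rw [hQfs, hsymm (∑ j, c.2 j • s j) f, hQfs]
    ring
  by_cases h2 : c.2 = 0
  · have h1 : c.1 ≠ 0 := by
      intro h1
      exact hc0 (Prod.ext h1 h2)
    have : Q (∑ j, c.2 j • s j) (∑ j, c.2 j • s j) = 0 := by simp [h2]
    have h3 : 0 < c.1 ^ 2 := by positivity
    nlinarith
  · have := hs c.2 h2
    have h3 : 0 ≤ c.1 ^ 2 := by positivity
    nlinarith

end Vale.Agent.P363.H849
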