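import Vale.Agent.P363.H849.Hydrogen

/-! Gradients, bounds and weak eigen-equations of the five hydrogen orbitals `Top.orb`. -/

namespace Vale.Agent.P363.H849

open MeasureTheory Set Real Filter Topology
open scoped ENNReal ContDiff
open Vale.Agent.P363.R.Sob (IsWD Test)
open Vale.Agent.P363.R.Top (orb orbE)

noncomputable section

/-- weak gradient of the orbitals (zero at the origin by convention) -/
def orbG (i : Fin 5) (k : Fin 3) (x : R3) : ℝ := nc i * (orbH i).1.2 k x

theorem orb_bd0 (i : Fin 5) : Bd0 (orb i) := by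
  have h := (wv_bd0 (kap_pos i) (pol i)).const_mul (nc i)
  have e : orb i = fun x => nc i * wv (kap i) (pol i) x := by
    funext x; exact orb_eq i x
  rw [e]; exact h

theorem orbG_bd0 (i : Fin 5) (k : Fin 3) : Bd0 (orbG i k) :=
  (wg_bd0 (kap_pos i) (pol i) k).const_mul (nc i)

theorem orb_continuous (i : Fin 5) : Continuous (orb i) := by
  have e : orb i = fun x => nc i * wv (kap i) (pol i) x := by
    funext x; exact orb_eq i x
  rw [e]; exact continuous_const.mul (wv_continuous _ _)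

theorem orbG_memLp (i : Fin 5) (k : Fin 3) : MemLp (orbG i k) 2 := (orbG_bd0 i k).memLp

theorem orb_isWD (i : Fin 5) (k : Fin 3) : IsWD volume (e3 k) (orb i) (orbG i k) := by
  have h := (w_isWD (kap_pos i) (pol i) k).const_smul (nc i)
  have e : orb i = fun x => nc i • wv (kap i) (pol i) x := by
    funext x; exact orb_eq i x
  rw [e]; exact h

theorem orb_contDiffAt (i : Fin 5) {x : R3} (hx : x ≠ 0) : ContDiffAt ℝ ∞ (orb i) x := by
  have e : orb i = fun x => nc i * wv (kap i) (pol i) x := by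
    funext x; exact orb_eq i x
  rw [e]; exact contDiffAt_const.mul (wv_contDiffAt (kap_pos i) (pol i) hx)

theorem orb_fderiv (i : Fin 5) (k : Fin 3) {x : R3} (hx : x ≠ 0) :
    fderiv ℝ (orb i) x (e3 k) = orbG i k x := by
  have e : orb i = fun x => nc i * wv (kap i) (pol i) x := by
    funext x; exact orb_eq i x
  rw [e, fderiv_const_mul ((wv_contDiffAt (kap_pos i) (pol i) hx).differentiableAt (by simp))]
  rw [_root_.smul_apply, wv_fderiv (kap_pos i) (pol i) k hx]
  rfl

/-- continuous everywhere, so the exponential bound holds everywhere -/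
theorem orb_bound (i : Fin 5) : ∃ A c : ℝ, 0 ≤ A ∧ 0 < c ∧ ∀ x, |orb i x| ≤ A * exp (-c * ‖x‖) := by
  obtain ⟨-, A, c, hA, hc, hb⟩ := orb_bd0 i
  refine ⟨max A |orb i 0|, c, le_max_of_le_left hA, hc, fun x => ?_⟩
  by_cases hx : x = 0
  · subst hx
    rw [norm_zero, mul_zero, Real.exp_zero, mul_one]
    exact le_max_right _ _
  · exact (hb x hx).trans (mul_le_mul_of_nonneg_right (le_max_left _ _) (exp_pos _).le)

/-- explicit bound of the five orbitals -/
theorem abs_orb_le (i : Fin 5) (x : R3) : |orb i x| ≤ exp (-‖x‖ / 4) := by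
  have hn := norm_nonneg x
  have h4 : (0 : ℝ) < 4 * Real.sqrt (2 * π) := by positivity
  have hs : 2 ≤ Real.sqrt (2 * π) := by
    apply Real.le_sqrt_of_sq_le
    have := Real.pi_gt_three
    linarith
  have hs1 : 1 ≤ Real.sqrt π := by
    apply Real.le_sqrt_of_sq_le
    have := Real.pi_gt_three
    linarith
  have e1 : exp (-‖x‖ / 2) = exp (-‖x‖ / 4) * exp (-‖x‖ / 4) := by
    rw [← Real.exp_add]; ring_nf
  have hb : ‖x‖ / 4 * exp (-‖x‖ / 4) ≤ 1 := by
    have h1 := Real.add_one_le_exp (‖x‖ / 4)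
    have h2 : exp (‖x‖ / 4) * exp (-‖x‖ / 4) = 1 := by rw [← Real.exp_add]; ring_nf; simp
    calc ‖x‖ / 4 * exp (-‖x‖ / 4) ≤ exp (‖x‖ / 4) * exp (-‖x‖ / 4) := by
          apply mul_le_mul_of_nonneg_right _ (exp_pos _).le
          linarith
      _ = 1 := h2
  have hcoord : ∀ j : Fin 3, |x j * exp (-‖x‖ / 2) / (4 * Real.sqrt (2 * π))| ≤ exp (-‖x‖ / 4) := by
    intro j
    have hj : |x j| ≤ ‖x‖ := by
      have h2 := PiLp.norm_apply_le x j
      rwa [Real.norm_eq_abs] at h2
    rw [abs_div, abs_of_pos h4, abs_mul, abs_of_pos (exp_pos _), div_le_iff₀ h4, e1]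
    calc |x j| * (exp (-‖x‖ / 4) * exp (-‖x‖ / 4))
        ≤ ‖x‖ * (exp (-‖x‖ / 4) * exp (-‖x‖ / 4)) := by gcongr
      _ = 4 * (‖x‖ / 4 * exp (-‖x‖ / 4)) * exp (-‖x‖ / 4) := by ring
      _ ≤ 4 * 1 * exp (-‖x‖ / 4) := by gcongr
      _ ≤ exp (-‖x‖ / 4) * (4 * Real.sqrt (2 * π)) := by nlinarith [exp_pos (-‖x‖ / 4)]
  fin_cases i
  · show |Real.exp (-‖x‖) / Real.sqrt Real.pi| ≤ _
    rw [abs_of_pos (by positivity), div_le_iff₀ (by positivity)]
    have : exp (-‖x‖) ≤ exp (-‖x‖ / 4) := exp_le_exp.2 (by linarith)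
    nlinarith [exp_pos (-‖x‖ / 4)]
  · show |(2 - ‖x‖) * Real.exp (-‖x‖ / 2) / (4 * Real.sqrt (2 * Real.pi))| ≤ _
    rw [abs_div, abs_of_pos h4, abs_mul, abs_of_pos (exp_pos _), div_le_iff₀ h4, e1]
    have h2 : |2 - ‖x‖| ≤ 2 + ‖x‖ := by rw [abs_le]; constructor <;> linarith
    have h5 : exp (-‖x‖ / 4) ≤ 1 := by
      rw [show (1 : ℝ) = exp 0 by simp]; exact exp_le_exp.2 (by linarith)
    calc |2 - ‖x‖| * (exp (-‖x‖ / 4) * exp (-‖x‖ / 4))
        ≤ (2 + ‖x‖) * (exp (-‖x‖ / 4) * exp (-‖x‖ / 4)) := by gcongr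
      _ = (2 * exp (-‖x‖ / 4) + 4 * (‖x‖ / 4 * exp (-‖x‖ / 4))) * exp (-‖x‖ / 4) := by ring
      _ ≤ (2 * 1 + 4 * 1) * exp (-‖x‖ / 4) := by gcongr
      _ ≤ exp (-‖x‖ / 4) * (4 * Real.sqrt (2 * π)) := by nlinarith [exp_pos (-‖x‖ / 4)]
  · exact hcoord 0
  · exact hcoord 1
  · exact hcoord 2

/-- weak eigen-equation, real form -/
theorem orb_eigen_real {f : R3 → ℝ} {g : Fin 3 → R3 → ℝ} (hf : MemLp f 2)
    (hg : ∀ k, MemLp (g k) 2) (hW : ∀ k, IsWD volume (e3 k) f (g k)) (i : Fin 5) :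
    (1 / 2) * (∑ k, ∫ x, orbG i k x * g k x) - ∫ x, orb i x * f x / ‖x‖
      = orbE i * ∫ x, orb i x * f x := by
  set u : H1 := ⟨(f, g), hf, hg, hW⟩ with hu
  have h := Qf_orb hardyInt u i
  rw [Qf_apply, dir_apply, ip_apply, bc_apply] at h
  have e1 : ∀ k, ∫ x, orbG i k x * g k x = nc i * ∫ x, u.1.2 k x * (orbH i).1.2 k x := by
    intro k
    rw [← integral_const_mul]
    congr 1; funext x
    simp only [orbG, hu]; ring
  have e2 : ∫ x, orb i x * f x = nc i * ∫ x, u.1.1 x * (orbH i).1.1 x := by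
    rw [← integral_const_mul]
    congr 1; funext x
    rw [orb_eq]; simp only [hu]; ring
  have e3 : ∫ x, orb i x * f x / ‖x‖ = nc i * ∫ x, u.1.1 x * (orbH i).1.1 x / ‖x‖ := by
    rw [← integral_const_mul]
    congr 1; funext x
    rw [orb_eq]; simp only [hu]; ring
  simp only [e1, e2, e3, ← Finset.mul_sum, orbE_eq]
  linear_combination (nc i) * h

/-- integrability of `orb i f / r` -/
theorem orb_mul_div_integrable {f : R3 → ℂ} (hf : MemLp f 2) (i : Fin 5) :
    Integrable (fun x => (orb i x : ℂ) * f x / (‖x‖ : ℂ)) := by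
  have h1 : MemLp (fun x => orb i x / ‖x‖) 2 := (orb_bd0 i).div_norm.memLp
  have h2 := (h1.ofReal (K := ℂ)).integrable_mul hf
  refine h2.congr (Eventually.of_forall fun x => ?_)
  simp only [Pi.mul_apply]
  push_cast
  simp
  ring

theorem orb_mul_integrable {f : R3 → ℂ} (hf : MemLp f 2) (i : Fin 5) :
    Integrable (fun x => (orb i x : ℂ) * f x) :=
  ((orb_memLp i).ofReal (K := ℂ)).integrable_mul hf

theorem orbG_mul_integrable {f : R3 → ℂ} (hf : MemLp f 2) (i : Fin 5) (k : Fin 3) :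
    Integrable (fun x => (orbG i k x : ℂ) * f x) :=
  ((orbG_memLp i k).ofReal (K := ℂ)).integrable_mul hf

/-- weak eigen-equation, complex form -/
theorem orb_eigen {f : R3 → ℂ} {g : Fin 3 → R3 → ℂ} (hf : MemLp f 2)
    (hg : ∀ k, MemLp (g k) 2) (hW : ∀ k, IsWD volume (e3 k) f (g k)) (i : Fin 5) :
    (1 / 2) * (∑ k, ∫ x, (orbG i k x : ℂ) * g k x) - ∫ x, (orb i x : ℂ) * f x / (‖x‖ : ℂ)
      = (orbE i : ℂ) * ∫ x, (orb i x : ℂ) * f x := by
  have hr := orb_eigen_real (memLp_re hf) (fun k => memLp_re (hg k))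
    (fun k => isWD_re hf (hg k) (hW k)) i
  have hi := orb_eigen_real (memLp_im hf) (fun k => memLp_im (hg k))
    (fun k => isWD_im hf (hg k) (hW k)) i
  have r1 : ∀ k, (∫ x, (orbG i k x : ℂ) * g k x).re = ∫ x, orbG i k x * (g k x).re := by
    intro k
    have := (Complex.reCLM.integral_comp_comm (orbG_mul_integrable (hg k) i k)).symm
    simp only [Complex.reCLM_apply, Complex.mul_re, Complex.ofReal_re, Complex.ofReal_im,
      zero_mul, sub_zero] at this
    exact this
  have i1 : ∀ k, (∫ x, (orbG i k x : ℂ) * g k x).im = ∫ x, orbG i k x * (g k x).im := by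
    intro k
    have := (Complex.imCLM.integral_comp_comm (orbG_mul_integrable (hg k) i k)).symm
    simp only [Complex.imCLM_apply, Complex.mul_im, Complex.ofReal_re, Complex.ofReal_im,
      zero_mul, add_zero] at this
    exact this
  have r2 : (∫ x, (orb i x : ℂ) * f x).re = ∫ x, orb i x * (f x).re := by
    have := (Complex.reCLM.integral_comp_comm (orb_mul_integrable hf i)).symm
    simp only [Complex.reCLM_apply, Complex.mul_re, Complex.ofReal_re, Complex.ofReal_im,
      zero_mul, sub_zero] at this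
    exact this
  have i2 : (∫ x, (orb i x : ℂ) * f x).im = ∫ x, orb i x * (f x).im := by
    have := (Complex.imCLM.integral_comp_comm (orb_mul_integrable hf i)).symm
    simp only [Complex.imCLM_apply, Complex.mul_im, Complex.ofReal_re, Complex.ofReal_im,
      zero_mul, add_zero] at this
    exact this
  have r3 : (∫ x, (orb i x : ℂ) * f x / (‖x‖ : ℂ)).re = ∫ x, orb i x * (f x).re / ‖x‖ := by
    have := (Complex.reCLM.integral_comp_comm (orb_mul_div_integrable hf i)).symm
    simp only [Complex.reCLM_apply] at this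
    rw [this]
    congr 1; funext x
    rw [Complex.div_ofReal_re, Complex.re_ofReal_mul]
  have i3 : (∫ x, (orb i x : ℂ) * f x / (‖x‖ : ℂ)).im = ∫ x, orb i x * (f x).im / ‖x‖ := by
    have := (Complex.imCLM.integral_comp_comm (orb_mul_div_integrable hf i)).symm
    simp only [Complex.imCLM_apply] at this
    rw [this]
    congr 1; funext x
    rw [Complex.div_ofReal_im, Complex.im_ofReal_mul]
  have half : (1 / 2 : ℂ) = ((1 / 2 : ℝ) : ℂ) := by push_cast; rfl
  apply Complex.ext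
  · rw [Complex.sub_re, half, Complex.re_ofReal_mul, Complex.re_ofReal_mul, Complex.re_sum, r2, r3]
    simp only [r1]
    exact hr
  · rw [Complex.sub_im, half, Complex.im_ofReal_mul, Complex.im_ofReal_mul, Complex.im_sum, i2, i3]
    simp only [i1]
    exact hi

end

end Vale.Agent.P363.H849
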