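import Vale.Agent.P363.H849.Gap0

/-! Gram matrix of the five eigenfunctions. -/

namespace Vale.Agent.P363.H849

open MeasureTheory Set Real Filter Topology
open scoped ENNReal ContDiff

noncomputable section

theorem integral_comp_isom (A : R3 ≃ₗᵢ[ℝ] R3) (F : R3 → ℝ) : ∫ x, F (A x) = ∫ x, F x :=
  (LinearIsometryEquiv.measurePreserving A).integral_comp A.toHomeomorph.measurableEmbedding F

/-- reflection of one coordinate -/
def refl1 (j : Fin 3) : R3 ≃ₗᵢ[ℝ] R3 :=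
  LinearIsometryEquiv.piLpCongrRight 2 fun i => if i = j then LinearIsometryEquiv.neg ℝ
    else LinearIsometryEquiv.refl ℝ ℝ

theorem refl1_same (j : Fin 3) (x : R3) : refl1 j x j = - x j := by
  simp [refl1, LinearIsometryEquiv.piLpCongrRight_apply]

theorem refl1_ne {i j : Fin 3} (h : i ≠ j) (x : R3) : refl1 j x i = x i := by
  simp [refl1, LinearIsometryEquiv.piLpCongrRight_apply, h]

theorem integral_odd_zero (j : Fin 3) (F : R3 → ℝ) (h : ∀ x, F (refl1 j x) = - F x) :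
    ∫ x, F x = 0 := by
  have h1 : ∫ x, F (refl1 j x) = ∫ x, F x :=
    (LinearIsometryEquiv.measurePreserving (refl1 j)).integral_comp
      (refl1 j).toHomeomorph.measurableEmbedding F
  simp only [h, integral_neg] at h1
  linarith

/-- swap of two coordinates -/
def swap2 (i j : Fin 3) : R3 ≃ₗᵢ[ℝ] R3 :=
  LinearIsometryEquiv.piLpCongrLeft 2 ℝ ℝ (Equiv.swap i j)

theorem swap2_apply (i j k : Fin 3) (x : R3) : swap2 i j x k = x (Equiv.swap i j k) := by
  simp [swap2, LinearIsometryEquiv.piLpCongrLeft_apply, Equiv.piCongrLeft']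

theorem integral_sq_coord (i j : Fin 3) (h : ℝ → ℝ) :
    ∫ x : R3, x i ^ 2 * h ‖x‖ = ∫ x : R3, x j ^ 2 * h ‖x‖ := by
  have h1 := integral_comp_isom (swap2 i j) (fun x : R3 => x j ^ 2 * h ‖x‖)
  rw [← h1]
  congr 1
  funext x
  simp only [swap2_apply, LinearIsometryEquiv.norm_map, Equiv.swap_apply_right]

theorem integral_sq_third (i : Fin 3) (h : ℝ → ℝ)
    (hi : ∀ j, Integrable (fun x : R3 => x j ^ 2 * h ‖x‖)) :
    ∫ x : R3, x i ^ 2 * h ‖x‖ = (1 / 3) * ∫ x : R3, ‖x‖ ^ 2 * h ‖x‖ := by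
  have h1 : ∫ x : R3, ‖x‖ ^ 2 * h ‖x‖ = ∑ j : Fin 3, ∫ x : R3, x j ^ 2 * h ‖x‖ := by
    rw [← integral_finsetSum _ (fun j _ => hi j)]
    congr 1
    funext x
    rw [norm_sq_R3, Finset.sum_mul]
  rw [h1, Fin.sum_univ_three, integral_sq_coord 0 i, integral_sq_coord 1 i, integral_sq_coord 2 i]
  ring

theorem wv_pol_0 (x : R3) : wv (kap 0) (pol 0) x = exp (-‖x‖) := by
  simp [wv, kap, pol, G, ev_one, ev_zero, hA]

theorem wv_pol_1 (x : R3) : wv (kap 1) (pol 1) x = (2 - ‖x‖) * exp (-(1 / 2) * ‖x‖) := by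
  have h : ∀ p : Poly, ev (-p) x = - ev p x := by intro p; simp [ev]
  simp only [wv, kap, pol, G, hA, hB, Matrix.cons_val_one, Matrix.cons_val_zero, h, ev_one, ev_C]
  ring

theorem wv_pol_X (j : Fin 3) (x : R3) :
    wv (1 / 2) ((MvPolynomial.X j : Poly), (0 : Poly)) x = x j * exp (-(1 / 2) * ‖x‖) := by
  simp only [wv, G, hA, ev_X, ev_zero]
  ring

theorem gram_aux_rad (f : ℝ → ℝ) (c : ℝ) (hf : ∫ y in Ioi (0 : ℝ), y ^ 2 * f y = c) :
    ∫ x : R3, f ‖x‖ = 4 * π * c := by rw [integral_rad, hf]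

theorem gram00 : ∫ x : R3, exp (-‖x‖) * exp (-‖x‖) = π := by
  rw [integral_rad (fun y => exp (-y) * exp (-y))]
  have : ∫ y in Ioi (0 : ℝ), y ^ 2 * (exp (-y) * exp (-y)) = 1 / 4 := by
    have h := integral_pow_exp 2 (c := 2) (by norm_num)
    have e : ∀ y : ℝ, y ^ 2 * (exp (-y) * exp (-y)) = y ^ 2 * exp (-2 * y) := by
      intro y; rw [← Real.exp_add]; ring_nf
    simp_rw [e]
    rw [h]
    norm_num [Nat.factorial]
  rw [this]; ring

theorem gram01 : ∫ x : R3, exp (-‖x‖) * ((2 - ‖x‖) * exp (-(1 / 2) * ‖x‖)) = 0 := by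
  rw [integral_rad (fun y => exp (-y) * ((2 - y) * exp (-(1 / 2) * y)))]
  have : ∫ y in Ioi (0 : ℝ), y ^ 2 * (exp (-y) * ((2 - y) * exp (-(1 / 2) * y))) = 0 := by
    have h2 := integral_pow_exp 2 (c := 3 / 2) (by norm_num)
    have h3 := integral_pow_exp 3 (c := 3 / 2) (by norm_num)
    have i2 := integrableOn_pow_exp 2 (c := 3 / 2) (by norm_num)
    have i3 := integrableOn_pow_exp 3 (c := 3 / 2) (by norm_num)
    have e : ∀ y : ℝ, y ^ 2 * (exp (-y) * ((2 - y) * exp (-(1 / 2) * y)))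
        = 2 * (y ^ 2 * exp (-(3 / 2) * y)) - y ^ 3 * exp (-(3 / 2) * y) := by
      intro y
      have : exp (-(3 / 2) * y) = exp (-y) * exp (-(1 / 2) * y) := by
        rw [← Real.exp_add]; ring_nf
      rw [this]; ring
    simp_rw [e]
    rw [integral_sub (i2.const_mul 2) i3, integral_const_mul, h2, h3]
    norm_num [Nat.factorial]
  rw [this]; ring

theorem gram11 : ∫ x : R3, ((2 - ‖x‖) * exp (-(1 / 2) * ‖x‖)) * ((2 - ‖x‖) * exp (-(1 / 2) * ‖x‖))
    = 32 * π := by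
  rw [integral_rad (fun y => ((2 - y) * exp (-(1 / 2) * y)) * ((2 - y) * exp (-(1 / 2) * y)))]
  have : ∫ y in Ioi (0 : ℝ), y ^ 2 * (((2 - y) * exp (-(1 / 2) * y)) *
      ((2 - y) * exp (-(1 / 2) * y))) = 8 := by
    have h2 := integral_pow_exp 2 (c := 1) (by norm_num)
    have h3 := integral_pow_exp 3 (c := 1) (by norm_num)
    have h4 := integral_pow_exp 4 (c := 1) (by norm_num)
    have i2 := integrableOn_pow_exp 2 (c := 1) (by norm_num)
    have i3 := integrableOn_pow_exp 3 (c := 1) (by norm_num)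
    have i4 := integrableOn_pow_exp 4 (c := 1) (by norm_num)
    have e : ∀ y : ℝ, y ^ 2 * (((2 - y) * exp (-(1 / 2) * y)) * ((2 - y) * exp (-(1 / 2) * y)))
        = (4 * (y ^ 2 * exp (-1 * y)) - 4 * (y ^ 3 * exp (-1 * y))) + y ^ 4 * exp (-1 * y) := by
      intro y
      have : exp (-1 * y) = exp (-(1 / 2) * y) * exp (-(1 / 2) * y) := by
        rw [← Real.exp_add]; ring_nf
      rw [this]; ring
    simp_rw [e]
    have i23 : IntegrableOn (fun y : ℝ => 4 * (y ^ 2 * exp (-1 * y)) - 4 * (y ^ 3 * exp (-1 * y)))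
        (Ioi 0) := (i2.const_mul 4).sub (i3.const_mul 4)
    rw [integral_add i23 i4,
      integral_sub (i2.const_mul 4) (i3.const_mul 4), integral_const_mul, integral_const_mul,
      h2, h3, h4]
    norm_num [Nat.factorial]
  rw [this]; ring

theorem gramXX (j : Fin 3) :
    ∫ x : R3, (x j * exp (-(1 / 2) * ‖x‖)) * (x j * exp (-(1 / 2) * ‖x‖)) = 32 * π := by
  have e1 : ∀ x : R3, (x j * exp (-(1 / 2) * ‖x‖)) * (x j * exp (-(1 / 2) * ‖x‖))
      = x j ^ 2 * exp (-1 * ‖x‖) := by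
    intro x
    have : exp (-1 * ‖x‖) = exp (-(1 / 2) * ‖x‖) * exp (-(1 / 2) * ‖x‖) := by
      rw [← Real.exp_add]; ring_nf
    rw [this]; ring
  simp_rw [e1]
  have hi : ∀ i, Integrable (fun x : R3 => x i ^ 2 * exp (-1 * ‖x‖)) := by
    intro i
    have hb : Bd0 (fun x => ev (MvPolynomial.X i) x * exp (-(1 / 2) * ‖x‖)) :=
      (isProfA (κ := 1 / 2) (by norm_num)).bd0 (MvPolynomial.X i)
    have := hb.memLp.integrable_mul hb.memLp
    refine this.congr (Eventually.of_forall fun x => ?_)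
    simp only [Pi.mul_apply, ev_X]
    have : exp (-1 * ‖x‖) = exp (-(1 / 2) * ‖x‖) * exp (-(1 / 2) * ‖x‖) := by
      rw [← Real.exp_add]; ring_nf
    rw [this]; ring
  rw [integral_sq_third j (fun y => exp (-1 * y)) hi,
    integral_rad (fun y => y ^ 2 * exp (-1 * y))]
  have : ∫ y in Ioi (0 : ℝ), y ^ 2 * (y ^ 2 * exp (-1 * y)) = 24 := by
    have h4 := integral_pow_exp 4 (c := 1) (by norm_num)
    have e : ∀ y : ℝ, y ^ 2 * (y ^ 2 * exp (-1 * y)) = y ^ 4 * exp (-1 * y) := by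
      intro y; ring
    simp_rw [e]
    rw [h4]
    norm_num [Nat.factorial]
  rw [this]; ring

theorem gramXh (j : Fin 3) (h : ℝ → ℝ) : ∫ x : R3, x j * h ‖x‖ = 0 := by
  apply integral_odd_zero j
  intro x
  rw [refl1_same, LinearIsometryEquiv.norm_map]; ring

theorem gramXY {i j : Fin 3} (hij : i ≠ j) (h : ℝ → ℝ) : ∫ x : R3, x i * x j * h ‖x‖ = 0 := by
  apply integral_odd_zero j
  intro x
  rw [refl1_same, refl1_ne hij, LinearIsometryEquiv.norm_map]; ring

/-- `2,3,4 ↦ 0,1,2` -/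
theorem ip_X (u : H1) (j : Fin 3) : ip u (Phi (κ := 1 / 2) (by norm_num) (MvPolynomial.X j, 0))
    = ∫ x, u.1.1 x * (x j * exp (-(1 / 2) * ‖x‖)) := by
  rw [ip_apply]
  congr 1
  funext x
  rw [Phi_fst, wv_pol_X]

theorem gramOK : GramOK := by
  have half : (0 : ℝ) < 1 / 2 := by norm_num
  -- symmetric access
  have o : ∀ i, ∀ x, (orbH i).1.1 x = wv (kap i) (pol i) x := fun i x => rfl
  have v0 : ∀ x, (orbH 0).1.1 x = exp (-‖x‖) := fun x => by rw [o, wv_pol_0]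
  have v1 : ∀ x, (orbH 1).1.1 x = (2 - ‖x‖) * exp (-(1 / 2) * ‖x‖) := fun x => by
    rw [o, wv_pol_1]
  have v2 : ∀ x, (orbH 2).1.1 x = x 0 * exp (-(1 / 2) * ‖x‖) := fun x => wv_pol_X 0 x
  have v3 : ∀ x, (orbH 3).1.1 x = x 1 * exp (-(1 / 2) * ‖x‖) := fun x => wv_pol_X 1 x
  have v4 : ∀ x, (orbH 4).1.1 x = x 2 * exp (-(1 / 2) * ‖x‖) := fun x => wv_pol_X 2 x
  have a00 : ip (orbH 0) (orbH 0) = π := by
    rw [ip_apply]; simp_rw [v0]; exact gram00
  have a01 : ip (orbH 0) (orbH 1) = 0 := by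
    rw [ip_apply]; simp_rw [v0, v1]; exact gram01
  have a11 : ip (orbH 1) (orbH 1) = 32 * π := by
    rw [ip_apply]; simp_rw [v1]; exact gram11
  have a02 : ip (orbH 0) (orbH 2) = 0 := by
    rw [ip_apply]; simp_rw [v0, v2]
    rw [← gramXh 0 (fun y => exp (-y) * exp (-(1 / 2) * y))]
    congr 1; funext x; ring
  have a03 : ip (orbH 0) (orbH 3) = 0 := by
    rw [ip_apply]; simp_rw [v0, v3]
    rw [← gramXh 1 (fun y => exp (-y) * exp (-(1 / 2) * y))]
    congr 1; funext x; ring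
  have a04 : ip (orbH 0) (orbH 4) = 0 := by
    rw [ip_apply]; simp_rw [v0, v4]
    rw [← gramXh 2 (fun y => exp (-y) * exp (-(1 / 2) * y))]
    congr 1; funext x; ring
  have a12 : ip (orbH 1) (orbH 2) = 0 := by
    rw [ip_apply]; simp_rw [v1, v2]
    rw [← gramXh 0 (fun y => (2 - y) * exp (-(1 / 2) * y) * exp (-(1 / 2) * y))]
    congr 1; funext x; ring
  have a13 : ip (orbH 1) (orbH 3) = 0 := by
    rw [ip_apply]; simp_rw [v1, v3]
    rw [← gramXh 1 (fun y => (2 - y) * exp (-(1 / 2) * y) * exp (-(1 / 2) * y))]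
    congr 1; funext x; ring
  have a14 : ip (orbH 1) (orbH 4) = 0 := by
    rw [ip_apply]; simp_rw [v1, v4]
    rw [← gramXh 2 (fun y => (2 - y) * exp (-(1 / 2) * y) * exp (-(1 / 2) * y))]
    congr 1; funext x; ring
  have a22 : ip (orbH 2) (orbH 2) = 32 * π := by
    rw [ip_apply]; simp_rw [v2]; exact gramXX 0
  have a33 : ip (orbH 3) (orbH 3) = 32 * π := by
    rw [ip_apply]; simp_rw [v3]; exact gramXX 1
  have a44 : ip (orbH 4) (orbH 4) = 32 * π := by
    rw [ip_apply]; simp_rw [v4]; exact gramXX 2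
  have a23 : ip (orbH 2) (orbH 3) = 0 := by
    rw [ip_apply]; simp_rw [v2, v3]
    rw [← gramXY (i := 0) (j := 1) (by decide) (fun y => exp (-(1 / 2) * y) * exp (-(1 / 2) * y))]
    congr 1; funext x; ring
  have a24 : ip (orbH 2) (orbH 4) = 0 := by
    rw [ip_apply]; simp_rw [v2, v4]
    rw [← gramXY (i := 0) (j := 2) (by decide) (fun y => exp (-(1 / 2) * y) * exp (-(1 / 2) * y))]
    congr 1; funext x; ring
  have a34 : ip (orbH 3) (orbH 4) = 0 := by
    rw [ip_apply]; simp_rw [v3, v4]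
    rw [← gramXY (i := 1) (j := 2) (by decide) (fun y => exp (-(1 / 2) * y) * exp (-(1 / 2) * y))]
    congr 1; funext x; ring
  intro i j
  fin_cases i <;> fin_cases j <;>
    simp [a00, a01, a02, a03, a04, a11, a12, a13, a14, a22, a23, a24, a33, a34, a44,
      ip_symm (orbH 1) (orbH 0), ip_symm (orbH 2) (orbH 0), ip_symm (orbH 3) (orbH 0),
      ip_symm (orbH 4) (orbH 0), ip_symm (orbH 2) (orbH 1), ip_symm (orbH 3) (orbH 1),
      ip_symm (orbH 4) (orbH 1), ip_symm (orbH 3) (orbH 2), ip_symm (orbH 4) (orbH 2),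
      ip_symm (orbH 4) (orbH 3)]

end

end Vale.Agent.P363.H849
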