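import Vale.Agent.P363.H849.Kid

/-! The polynomial side of the flag: the operator `K` on pairs of polynomials. -/

namespace Vale.Agent.P363.H849

open MvPolynomial

noncomputable section

/-- polynomials of degree `< n` -/
def Pn (n : ℕ) : Submodule ℝ Poly := restrictSupport ℝ {m | m.degree < n}

theorem Pn_mono : Monotone Pn := by
  intro a b hab
  apply restrictSupport_mono
  intro m hm
  exact lt_of_lt_of_le hm hab

theorem Pn_eq_span (n : ℕ) :
    Pn n = Submodule.span ℝ ((fun m => monomial m (1 : ℝ)) '' {m | m.degree < n}) :=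
  restrictSupport_eq_span ℝ _

theorem monomial_mem_Pn {n : ℕ} {m : Fin 3 →₀ ℕ} {c : ℝ} (h : c ≠ 0 → m.degree < n) :
    monomial m c ∈ Pn n := by
  unfold Pn
  rw [monomial_mem_restrictSupport]
  by_cases hc : c = 0
  · right; exact hc
  · left; exact h hc

theorem Pn_induction {n : ℕ} {C : Poly → Prop} (h0 : C 0) (hadd : ∀ p q, C p → C q → C (p + q))
    (hsmul : ∀ (a : ℝ) p, C p → C (a • p)) (hm : ∀ m : Fin 3 →₀ ℕ, m.degree < n → C (monomial m 1))
    {p : Poly} (hp : p ∈ Pn n) : C p := by
  rw [Pn_eq_span] at hp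
  induction hp using Submodule.span_induction with
  | mem x hx =>
    obtain ⟨m, hm', rfl⟩ := hx
    exact hm m hm'
  | zero => exact h0
  | add x y _ _ hx hy => exact hadd x y hx hy
  | smul a x _ hx => exact hsmul a x hx

instance Pn_fin (n : ℕ) : FiniteDimensional ℝ (Pn n) := by
  have hf : ({m : Fin 3 →₀ ℕ | m.degree < n}).Finite := by
    have h1 : ({f : Fin 3 → ℕ | ∀ i, f i ≤ n}).Finite := Set.Finite.pi' fun _ => Set.finite_le_nat _
    refine (h1.preimage (f := fun m : Fin 3 →₀ ℕ => (m : Fin 3 → ℕ))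
      DFunLike.coe_injective.injOn).subset ?_
    intro m hm i
    have := Finsupp.le_degree i m
    exact le_trans this (le_of_lt hm)
  rw [Pn_eq_span]
  exact FiniteDimensional.span_of_finite ℝ (hf.image _)

theorem Pn_zero : Pn 0 = ⊥ := by
  rw [Pn_eq_span]
  simp

theorem pderiv_mem {n : ℕ} (k : Fin 3) {p : Poly} (hp : p ∈ Pn (n + 1)) : pderiv k p ∈ Pn n := by
  refine Pn_induction (C := fun p => pderiv k p ∈ Pn n) ?_ ?_ ?_ ?_ hp
  · simp
  · intro p q hp hq; rw [map_add]; exact (Pn n).add_mem hp hq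
  · intro a p hp; rw [Derivation.map_smul]; exact (Pn n).smul_mem a hp
  · intro m hm
    rw [pderiv_monomial]
    apply monomial_mem_Pn
    intro hc
    have hk : m k ≠ 0 := by
      intro h; apply hc; simp [h]
    have h1 : m = (m - Finsupp.single k 1) + Finsupp.single k 1 := by
      rw [tsub_add_cancel_of_le]
      rw [Finsupp.single_le_iff]
      omega
    have h2 : m.degree = (m - Finsupp.single k 1).degree + 1 := by
      conv_lhs => rw [h1]
      rw [map_add, Finsupp.degree_single]
    omega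

theorem X_mul_mem {n : ℕ} (k : Fin 3) {p : Poly} (hp : p ∈ Pn n) : X k * p ∈ Pn (n + 1) := by
  refine Pn_induction (C := fun p => X k * p ∈ Pn (n + 1)) ?_ ?_ ?_ ?_ hp
  · simp
  · intro p q hp hq; rw [mul_add]; exact (Pn _).add_mem hp hq
  · intro a p hp; rw [mul_smul_comm]; exact (Pn _).smul_mem a hp
  · intro m hm
    rw [X, monomial_mul]
    apply monomial_mem_Pn
    intro _
    rw [map_add, Finsupp.degree_single]
    omega

theorem lap_add (p q : Poly) : lap (p + q) = lap p + lap q := by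
  simp [lap, Finset.sum_add_distrib]

theorem lap_smul (a : ℝ) (p : Poly) : lap (a • p) = a • lap p := by
  simp [lap, Finset.smul_sum]

theorem eul_add (p q : Poly) : eul (p + q) = eul p + eul q := by
  simp [eul, Finset.sum_add_distrib, mul_add]

theorem eul_smul (a : ℝ) (p : Poly) : eul (a • p) = a • eul p := by
  simp [eul, Finset.smul_sum]

theorem lap_mem {n : ℕ} {p : Poly} (hp : p ∈ Pn (n + 2)) : lap p ∈ Pn n :=
  (Pn n).sum_mem fun k _ => pderiv_mem k (pderiv_mem k hp)

theorem lap_eq_zero {p : Poly} (hp : p ∈ Pn 1) : lap p = 0 := by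
  unfold lap
  apply Finset.sum_eq_zero
  intro k _
  have := pderiv_mem k hp
  rw [Pn_zero, Submodule.mem_bot] at this
  rw [this, map_zero]

/-- the polynomial `|x|²` -/
def rsq : Poly := ∑ k : Fin 3, X k * X k

theorem rsq_lap_mem {n : ℕ} {p : Poly} (hp : p ∈ Pn n) : rsq * lap p ∈ Pn n := by
  match n, hp with
  | 0, hp =>
    rw [Pn_zero, Submodule.mem_bot] at hp
    subst hp
    simp [lap]
  | 1, hp => rw [lap_eq_zero hp]; simp
  | n + 2, hp =>
    unfold rsq
    rw [Finset.sum_mul]
    apply (Pn _).sum_mem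
    intro k _
    rw [mul_assoc]
    exact X_mul_mem k (X_mul_mem k (lap_mem hp))

theorem eul_monomial (m : Fin 3 →₀ ℕ) (c : ℝ) :
    eul (monomial m c) = (m.degree : ℝ) • monomial m c := by
  unfold eul
  have h : ∀ k : Fin 3, X k * pderiv k (monomial m c) = (m k : ℝ) • monomial m c := by
    intro k
    rw [pderiv_monomial, X, monomial_mul, one_mul, smul_monomial]
    by_cases hk : m k = 0
    · simp [hk]
    · have h1 : Finsupp.single k 1 + (m - Finsupp.single k 1) = m := by
        rw [add_comm, tsub_add_cancel_of_le]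
        rw [Finsupp.single_le_iff]
        omega
      rw [h1]
      congr 1
      rw [smul_eq_mul, mul_comm]
  rw [Finset.sum_congr rfl (fun k _ => h k), ← Finset.sum_smul]
  congr 1
  rw [Finsupp.degree_eq_sum]
  push_cast
  rfl

theorem eul_sub_mem {n : ℕ} {p : Poly} (hp : p ∈ Pn (n + 1)) : eul p - (n : ℝ) • p ∈ Pn n := by
  refine Pn_induction (C := fun p => eul p - (n : ℝ) • p ∈ Pn n) ?_ ?_ ?_ ?_ hp
  · simp [eul]
  · intro p q hp hq
    have : eul (p + q) - (n : ℝ) • (p + q) = (eul p - (n : ℝ) • p) + (eul q - (n : ℝ) • q) := by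
      rw [eul_add, smul_add]; abel
    rw [this]
    exact (Pn n).add_mem hp hq
  · intro a p hp
    have : eul (a • p) - (n : ℝ) • (a • p) = a • (eul p - (n : ℝ) • p) := by
      rw [eul_smul, smul_sub, smul_comm]
    rw [this]
    exact (Pn n).smul_mem a hp
  · intro m hm
    rw [eul_monomial, ← sub_smul]
    by_cases h : m.degree = n
    · rw [h, sub_self, zero_smul]; exact (Pn n).zero_mem
    · apply (Pn n).smul_mem
      apply monomial_mem_Pn
      intro _
      omega

theorem eul_mem {n : ℕ} {p : Poly} (hp : p ∈ Pn n) : eul p ∈ Pn n := by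
  match n, hp with
  | 0, hp =>
    rw [Pn_zero, Submodule.mem_bot] at hp
    subst hp
    simp [eul]
  | n + 1, hp =>
    have h1 := eul_sub_mem hp
    have h2 := (Pn (n + 1)).add_mem (Pn_mono (Nat.le_succ n) h1) ((Pn (n + 1)).smul_mem (n : ℝ) hp)
    simpa using h2

/-- the operator `K = ½ r (-Δ + κ²)` on pairs `(p, q)` representing `(p + r q) e^{-κ r}` -/
def Kop (κ : ℝ) (u : Poly × Poly) : Poly × Poly :=
  (κ • (eul u.1 + u.1) - (eul u.2 + u.2) - (1 / 2 : ℝ) • (rsq * lap u.2),
    -((1 / 2 : ℝ) • lap u.1) + κ • (eul u.2 + (2 : ℝ) • u.2))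

/-- flag -/
def Un (n : ℕ) : Submodule ℝ (Poly × Poly) := (Pn n).prod (Pn (n - 1))

theorem Un_mono : Monotone Un := by
  intro a b hab
  exact Submodule.prod_mono (Pn_mono hab) (Pn_mono (Nat.sub_le_sub_right hab 1))

theorem Kop_mem (κ : ℝ) (n : ℕ) {u : Poly × Poly} (hu : u ∈ Un (n + 1)) :
    Kop κ u - (κ * (n + 1)) • u ∈ Un n := by
  obtain ⟨p, q⟩ := u
  have hp : p ∈ Pn (n + 1) := hu.1
  have hq : q ∈ Pn n := hu.2
  constructor
  · have h : (Kop κ (p, q) - (κ * (n + 1)) • (p, q)).1
        = κ • (eul p - (n : ℝ) • p) - (eul q + q) - (1 / 2 : ℝ) • (rsq * lap q) := by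
      simp only [Kop, Prod.fst_sub, Prod.smul_fst]
      module
    show (Kop κ (p, q) - (κ * (n + 1)) • (p, q)).1 ∈ Pn n
    rw [h]
    refine (Pn n).sub_mem ((Pn n).sub_mem ((Pn n).smul_mem _ (eul_sub_mem hp))
      ((Pn n).add_mem (eul_mem hq) hq)) ((Pn n).smul_mem _ (rsq_lap_mem hq))
  · show (Kop κ (p, q) - (κ * (n + 1)) • (p, q)).2 ∈ Pn (n - 1)
    have h : (Kop κ (p, q) - (κ * (n + 1)) • (p, q)).2
        = -((1 / 2 : ℝ) • lap p) + κ • (eul q - ((n : ℝ) - 1) • q) := by
      simp only [Kop, Prod.snd_sub, Prod.smul_snd]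
      module
    rw [h]
    match n, hp, hq with
    | 0, hp, hq =>
      rw [lap_eq_zero hp]
      rw [Pn_zero, Submodule.mem_bot] at hq
      subst hq
      simp [eul]
    | n + 1, hp, hq =>
      refine (Pn _).add_mem ((Pn _).neg_mem ((Pn _).smul_mem _ (lap_mem hp))) ((Pn _).smul_mem _ ?_)
      have := eul_sub_mem hq
      have h2 : (((n + 1 : ℕ) : ℝ) - 1) = n := by push_cast; ring
      rw [h2]
      exact this

/-- polynomials of degree `< 2` are affine -/
theorem mem_Pn_two {C : Poly → Prop} (hadd : ∀ p q, C p → C q → C (p + q))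
    (hsmul : ∀ (a : ℝ) p, C p → C (a • p)) (h1 : C 1) (hX : ∀ i, C (X i))
    {p : Poly} (hp : p ∈ Pn 2) : C p := by
  have h0 : C 0 := by simpa using hsmul 0 1 h1
  refine Pn_induction h0 hadd hsmul ?_ hp
  intro m hm
  by_cases h : m.degree = 0
  · have : m = 0 := (Finsupp.degree_eq_zero_iff m).1 h
    subst this
    exact h1
  · have h2 : m.degree = 1 := by omega
    obtain ⟨i, hi⟩ : ∃ i, m = Finsupp.single i 1 := by
      have hne : ∃ i, m i ≠ 0 := by
        by_contra hcon
        push Not at hcon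
        apply h
        have : m = 0 := by ext i; exact hcon i
        rw [this, map_zero]
      obtain ⟨i, hi⟩ := hne
      have h3 : m = (m - Finsupp.single i 1) + Finsupp.single i 1 := by
        rw [tsub_add_cancel_of_le]
        rw [Finsupp.single_le_iff]
        omega
      have h4 : m.degree = (m - Finsupp.single i 1).degree + 1 := by
        conv_lhs => rw [h3]
        rw [map_add, Finsupp.degree_single]
      have h5 : (m - Finsupp.single i 1) = 0 := (Finsupp.degree_eq_zero_iff _).1 (by omega)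
      exact ⟨i, by rw [h3, h5, zero_add]⟩
    subst hi
    exact hX i

theorem mem_Pn_one {C : Poly → Prop} (hadd : ∀ p q, C p → C q → C (p + q))
    (hsmul : ∀ (a : ℝ) p, C p → C (a • p)) (h1 : C 1)
    {p : Poly} (hp : p ∈ Pn 1) : C p := by
  have h0 : C 0 := by simpa using hsmul 0 1 h1
  refine Pn_induction h0 hadd hsmul ?_ hp
  intro m hm
  have : m = 0 := (Finsupp.degree_eq_zero_iff m).1 (by omega)
  subst this
  exact h1

end

end Vale.Agent.P363.H849
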