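import Vale.Agent.P363.H849.PotCalc
import Vale.Agent.P363.R.Sob.S14
import Mathlib.MeasureTheory.Covering.DensityTheorem

/-! PB: the Newtonian potential bound for subsolutions on shells. -/

namespace Vale.Agent.P363.H849

open MeasureTheory Filter Topology Metric
open Vale.Agent.P363.Stmt (R3)
open Vale.Agent.P363.R.Sob
open Vale.Agent.P363.R.B5
open Vale.Agent.P363.R.H10 (ss kk kk1 kk2 ei ss_pos)
open scoped ContDiff ENNReal

noncomputable section

/-- coordinate direction -/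
abbrev eu (k : Fin 3) : R3 := EuclideanSpace.single k 1

theorem isOpen_sh (r R : ℝ) : IsOpen (sh r R) := by
  unfold sh
  exact (isOpen_lt continuous_const continuous_norm).inter (isOpen_lt continuous_norm continuous_const)

theorem shell_cutoff {r₁ r₂ R₂ R₁ : ℝ} (h1 : r₁ < r₂) (h3 : R₂ < R₁) :
    ∃ (ζ : R3 → ℝ) (δ : ℝ), Test ζ ∧ 0 < δ ∧ tsupport ζ ⊆ sh r₁ R₁ ∧ (∀ x, ζ x ∈ Set.Icc (0 : ℝ) 1) ∧
      ∀ x, r₂ ≤ ‖x‖ → ‖x‖ ≤ R₂ → ∀ y, ‖y - x‖ < δ → ∀ᶠ z in 𝓝 y, ζ z = 1 := by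
  set K : Set R3 := {x | (r₁ + r₂) / 2 ≤ ‖x‖ ∧ ‖x‖ ≤ (R₂ + R₁) / 2} with hK
  have hKc : IsCompact K := by
    refine Metric.isCompact_of_isClosed_isBounded ?_ ?_
    · exact (isClosed_le continuous_const continuous_norm).inter
        (isClosed_le continuous_norm continuous_const)
    · refine (Metric.isBounded_closedBall (x := (0 : R3)) (r := (R₂ + R₁) / 2)).subset ?_
      intro x hx
      simpa using hx.2
  have hKU : K ⊆ sh r₁ R₁ := by
    intro x hx
    exact ⟨by linarith [hx.1], by linarith [hx.2]⟩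
  obtain ⟨ζ, hζ, hζc, hζs, hζ1, hζI⟩ := exists_cutoff hKc (isOpen_sh r₁ R₁) hKU
  refine ⟨ζ, min ((r₂ - r₁) / 2) ((R₁ - R₂) / 2), ⟨hζ, hζc⟩,
    lt_min (by linarith) (by linarith), hζs, hζI, fun x hx1 hx2 y hy => ?_⟩
  have hy1 := hy.trans_le (min_le_left _ _)
  have hy2 := hy.trans_le (min_le_right _ _)
  have n1 : ‖x‖ - ‖y‖ ≤ ‖y - x‖ := by rw [norm_sub_rev]; exact norm_sub_norm_le x y
  have n2 : ‖y‖ - ‖x‖ ≤ ‖y - x‖ := norm_sub_norm_le y x
  have hyK : y ∈ K := ⟨by linarith, by linarith⟩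
  exact (eventually_nhdsSet_iff_forall.1 hζ1) y hyK

theorem exists_bound_test {φ : R3 → ℝ} (hc : Continuous φ) (hs : HasCompactSupport φ) :
    ∃ M, 0 ≤ M ∧ ∀ x, |φ x| ≤ M := by
  obtain ⟨M, hM⟩ := hs.exists_bound_of_continuous hc
  exact ⟨M, (norm_nonneg _).trans (hM 0), hM⟩

theorem lap_hasCompactSupport {φ : R3 → ℝ} (hs : HasCompactSupport φ) :
    HasCompactSupport (lap φ) := by
  have h : ∀ k : Fin 3, HasCompactSupport
      (fun x => fderiv ℝ (fun z => fderiv ℝ φ z (eu k)) x (eu k)) := fun k =>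
    (hs.fderiv_apply (𝕜 := ℝ) (eu k)).fderiv_apply (𝕜 := ℝ) (eu k)
  have : lap φ = fun x => (fderiv ℝ (fun z => fderiv ℝ φ z (eu 0)) x (eu 0)
      + fderiv ℝ (fun z => fderiv ℝ φ z (eu 1)) x (eu 1))
      + fderiv ℝ (fun z => fderiv ℝ φ z (eu 2)) x (eu 2) := by
    funext x
    simp only [lap, Fin.sum_univ_three]
  rw [this]
  exact ((h 0).add (h 1)).add (h 2)

theorem lap_zero_of_eventually_const {φ : R3 → ℝ} {y : R3} {c : ℝ} (h : ∀ᶠ z in 𝓝 y, φ z = c) :
    lap φ y = 0 ∧ ∀ v : R3, fderiv ℝ φ y v = 0 := by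
  have h1 : ∀ᶠ z in 𝓝 y, fderiv ℝ φ z = 0 := by
    filter_upwards [eventually_eventually_nhds.2 h] with z hz
    have : fderiv ℝ φ z = fderiv ℝ (fun _ => c) z := Filter.EventuallyEq.fderiv_eq hz
    rw [this]; simp
  refine ⟨?_, fun v => by rw [h1.self_of_nhds]; rfl⟩
  unfold lap
  apply Finset.sum_eq_zero
  intro k _
  have h2 : (fun z => fderiv ℝ φ z (eu k)) =ᶠ[𝓝 y] fun _ => (0 : ℝ) := by
    filter_upwards [h1] with z hz
    rw [hz]; rfl
  rw [h2.fderiv_eq]
  simp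

/-- the key real inequality -/
theorem key_ineq {r₁ r₂ R₂ R₁ : ℝ} (h1 : r₁ < r₂) (h3 : R₂ < R₁) (K : ℝ) :
    ∃ (C δ : ℝ), 0 ≤ C ∧ 0 < δ ∧ ∀ n h : R3 → ℝ, (∀ᵐ x, 0 ≤ n x) → (∀ᵐ x, 0 ≤ h x) →
      Integrable n → Integrable h → SubSol r₁ R₁ K n h →
      ∀ x : R3, r₂ ≤ ‖x‖ → ‖x‖ ≤ R₂ → ∀ e : ℝ, 0 < e → e < δ →
        (volume.real (closedBall x e))⁻¹ * ∫ y in closedBall x e, n y ≤
          ∫ y in sh r₁ R₁, C * ((1 + kk e x y) * (n y + h y)) := by
  obtain ⟨ζ, δ, hζ, hδ, hζs, hζI, hζ1⟩ := shell_cutoff h1 h3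
  set η : R3 → ℝ := fun y => ζ y ^ 2 with hη
  have hηc : ContDiff ℝ ∞ η := hζ.1.pow 2
  have hηs : HasCompactSupport η := by
    have : η = fun y => ζ y * ζ y := by funext y; simp only [hη]; ring
    rw [this]; exact hζ.2.mul_left
  have hηI : ∀ y, η y ∈ Set.Icc (0 : ℝ) 1 := fun y =>
    ⟨sq_nonneg _, by
      have := hζI y
      simp only [hη]
      nlinarith [this.1, this.2]⟩
  have hη0 : ∀ y, y ∉ sh r₁ R₁ → ∀ᶠ z in 𝓝 y, η z = 0 := by
    intro y hy
    have : y ∉ tsupport ζ := fun hh => hy (hζs hh)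
    have h2 := notMem_tsupport_iff_eventuallyEq.1 this
    filter_upwards [h2] with z hz
    simp only [hη, hz]; simp
  have hη1 : ∀ x, r₂ ≤ ‖x‖ → ‖x‖ ≤ R₂ → ∀ y, ‖y - x‖ < δ → ∀ᶠ z in 𝓝 y, η z = 1 := by
    intro x hx1 hx2 y hy
    filter_upwards [hζ1 x hx1 hx2 y hy] with z hz
    simp only [hη, hz]; norm_num
  obtain ⟨M₀, hM₀, hMlap⟩ := exists_bound_test (lap_continuous hηc) (lap_hasCompactSupport hηs)
  have hdb : ∀ k : Fin 3, ∃ M, 0 ≤ M ∧ ∀ x, |fderiv ℝ η x (eu k)| ≤ M := fun k =>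
    exists_bound_test ((hηc.continuous_fderiv (by simp)).clm_apply continuous_const)
      (hηs.fderiv_apply (𝕜 := ℝ) _)
  choose Mk hMk hMkb using hdb
  set M : ℝ := M₀ + ∑ k, Mk k with hM
  have hM0 : 0 ≤ M := add_nonneg hM₀ (Finset.sum_nonneg fun k _ => hMk k)
  have hMd : ∀ k x, |fderiv ℝ η x (eu k)| ≤ M := fun k x =>
    (hMkb k x).trans ((Finset.single_le_sum (fun j _ => hMk j) (Finset.mem_univ k)).trans
      (by rw [hM]; linarith))
  have hMl : ∀ x, |lap η x| ≤ M := fun x => (hMlap x).trans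
    (by rw [hM]; linarith [Finset.sum_nonneg fun k (_ : k ∈ Finset.univ) => hMk k])
  set C : ℝ := |K| + M + 1 + 6 * M / δ ^ 2 with hC
  have hC0 : 0 ≤ C := by positivity
  refine ⟨C, δ, hC0, hδ, fun n h hn hh hni hhi hsub x hx1 hx2 e he heδ => ?_⟩
  -- the test function
  have hψ : Test (fun y => ζ y * qk e x y) := hζ.mul (qk_contDiff he x)
  have hψ0 : ∀ y, y ∉ sh r₁ R₁ → ζ y * qk e x y = 0 := by
    intro y hy
    have : y ∉ tsupport ζ := fun hh => hy (hζs hh)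
    rw [image_eq_zero_of_notMem_tsupport this, zero_mul]
  have hS := hsub _ hψ hψ0
  have hsq : ∀ y, (ζ y * qk e x y) ^ 2 = η y * kk e x y := by
    intro y; rw [mul_pow, qk_sq he]
  simp only [hsq] at hS
  have hlap : ∀ y, lap (fun y => η y * kk e x y) y = -(η y * (3 * e ^ 2 / ss e x y ^ 5))
      + (2 * (∑ k : Fin 3, fderiv ℝ η y (eu k) * kk1 e x k y) + kk e x y * lap η y) := by
    intro y
    rw [lap_mul hηc (kk_contDiff he x), lap_kk he]
    simp only [kk_fderiv he]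
    ring
  -- the error term
  set E : R3 → ℝ := fun y => 2 * (∑ k : Fin 3, fderiv ℝ η y (eu k) * kk1 e x k y)
    + kk e x y * lap η y with hE
  have hEc : Continuous E := by
    refine (continuous_const.mul (continuous_finsetSum _ fun k _ => ?_)).add
      ((kk_contDiff he x).continuous.mul (lap_continuous hηc))
    exact ((hηc.continuous_fderiv (by simp)).clm_apply continuous_const).mul
      (kk1_contDiff he x k).continuous
  have hE0 : ∀ y, y ∉ sh r₁ R₁ → E y = 0 := by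
    intro y hy
    obtain ⟨a1, a2⟩ := lap_zero_of_eventually_const (hη0 y hy)
    simp only [hE, a1, a2]; simp
  have hEb : ∀ y, |E y| ≤ 6 * M / δ ^ 2 + M * kk e x y := by
    intro y
    have hkp := (kk_pos he x y).le
    by_cases hy : ‖y - x‖ < δ
    · obtain ⟨a1, a2⟩ := lap_zero_of_eventually_const (hη1 x hx1 hx2 y hy)
      simp only [hE, a1, a2]
      simp only [zero_mul, Finset.sum_const_zero, mul_zero, add_zero, abs_zero]
      positivity
    · push Not at hy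
      have b1 : ∀ k : Fin 3, |fderiv ℝ η y (eu k) * kk1 e x k y| ≤ M * (1 / δ ^ 2) := by
        intro k
        rw [abs_mul]
        exact mul_le_mul (hMd k y) (abs_kk1_le he hδ hy k) (abs_nonneg _) hM0
      calc |E y| ≤ |2 * (∑ k : Fin 3, fderiv ℝ η y (eu k) * kk1 e x k y)| + |kk e x y * lap η y| :=
            abs_add_le _ _
        _ ≤ 2 * (∑ k : Fin 3, |fderiv ℝ η y (eu k) * kk1 e x k y|) + kk e x y * M := by
            rw [abs_mul, abs_of_pos (by norm_num : (0 : ℝ) < 2), abs_mul, abs_of_nonneg hkp]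
            gcongr
            · exact Finset.abs_sum_le_sum_abs _ _
            · exact hMl y
        _ ≤ 2 * (∑ k : Fin 3, M * (1 / δ ^ 2)) + kk e x y * M := by
            gcongr with k
            exact b1 k
        _ = _ := by
            simp only [Finset.sum_const, Finset.card_univ, Fintype.card_fin, nsmul_eq_mul]
            push_cast; ring
  -- integrability
  have hkkc : Continuous (kk e x) := (kk_contDiff he x).continuous
  have hkkb : ∀ y, ‖kk e x y‖ ≤ 1 / e := fun y => by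
    rw [Real.norm_of_nonneg (kk_pos he x y).le]; exact kk_le' he x y
  have hssc : Continuous (fun y => 3 * e ^ 2 / ss e x y ^ 5) :=
    continuous_const.div ((ss_contDiff he x).continuous.pow 5)
      (fun y => pow_ne_zero 5 (ss_pos he x y).ne')
  have hT : Continuous (fun y => η y * (3 * e ^ 2 / ss e x y ^ 5)) := hηc.continuous.mul hssc
  obtain ⟨BT, hBT0, hBT⟩ := exists_bound_test hT hηs.mul_right
  have hEsupp : HasCompactSupport E := by
    refine HasCompactSupport.intro (K := closure (sh r₁ R₁)) ?_ ?_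
    · refine Metric.isCompact_of_isClosed_isBounded isClosed_closure ?_
      refine Bornology.IsBounded.closure ?_
      refine (Metric.isBounded_ball (x := (0 : R3)) (r := R₁)).subset ?_
      intro z hz
      simpa using hz.2
    · intro y hy
      exact hE0 y (fun hh => hy (subset_closure hh))
  obtain ⟨BE, hBE0, hBE⟩ := exists_bound_test hEc hEsupp
  have iT : Integrable (fun y => n y * (η y * (3 * e ^ 2 / ss e x y ^ 5))) := by
    exact hni.mul_bdd (c := BT) hT.aestronglyMeasurable (Eventually.of_forall hBT)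
  have iE : Integrable (fun y => n y * E y) :=
    hni.mul_bdd (c := BE) hEc.aestronglyMeasurable (Eventually.of_forall hBE)
  have hηkk : ∀ y, ‖η y * kk e x y‖ ≤ 1 / e := by
    intro y
    rw [norm_mul, Real.norm_of_nonneg (hηI y).1]
    calc η y * ‖kk e x y‖ ≤ 1 * (1 / e) := mul_le_mul (hηI y).2 (hkkb y) (norm_nonneg _) zero_le_one
      _ = 1 / e := one_mul _
  have iKh : Integrable (fun y => η y * kk e x y * (K * n y + h y)) :=
    ((hni.const_mul K).add hhi).bdd_mul (hηc.continuous.mul hkkc).aestronglyMeasurable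
      (Eventually.of_forall hηkk)
  -- rewrite
  have e1 : ∫ y, n y * lap (fun y => η y * kk e x y) y
      = -(∫ y, n y * (η y * (3 * e ^ 2 / ss e x y ^ 5))) + ∫ y, n y * E y := by
    have iTn : Integrable (fun y => -(n y * (η y * (3 * e ^ 2 / ss e x y ^ 5)))) := iT.neg
    rw [← integral_neg, ← integral_add iTn iE]
    congr 1; funext y
    rw [hlap]
    simp only [hE]; ring
  rw [e1] at hS
  have hmain : ∫ y, n y * (η y * (3 * e ^ 2 / ss e x y ^ 5)) ≤
      ∫ y, (η y * kk e x y * (K * n y + h y) + n y * E y) := by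
    rw [integral_add iKh iE]; linarith
  -- right side
  have iR : Integrable (fun y => C * ((1 + kk e x y) * (n y + h y))) := by
    refine Integrable.const_mul ?_ C
    refine (hni.add hhi).bdd_mul (c := 1 + 1 / e)
      ((continuous_const.add hkkc).aestronglyMeasurable) (Eventually.of_forall fun y => ?_)
    calc ‖1 + kk e x y‖ ≤ ‖(1 : ℝ)‖ + ‖kk e x y‖ := norm_add_le _ _
      _ ≤ 1 + 1 / e := by rw [norm_one]; exact add_le_add_right (hkkb y) 1
  have hright : ∫ y, (η y * kk e x y * (K * n y + h y) + n y * E y) ≤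
      ∫ y in sh r₁ R₁, C * ((1 + kk e x y) * (n y + h y)) := by
    rw [← integral_indicator (isOpen_sh r₁ R₁).measurableSet]
    apply integral_mono_ae (iKh.add iE) (iR.indicator (isOpen_sh r₁ R₁).measurableSet)
    filter_upwards [hn, hh] with y hny hhy
    by_cases hy : y ∈ sh r₁ R₁
    · rw [Set.indicator_of_mem hy]
      have hkp := (kk_pos he x y).le
      have hE' := hEb y
      have hη' := hηI y
      have t1 : η y * kk e x y * (K * n y + h y) ≤ kk e x y * (|K| * n y + h y) := by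
        have u1 : K * n y + h y ≤ |K| * n y + h y := by
          have := mul_le_mul_of_nonneg_right (le_abs_self K) hny
          linarith
        have u2 : 0 ≤ |K| * n y + h y := by positivity
        calc η y * kk e x y * (K * n y + h y) ≤ η y * kk e x y * (|K| * n y + h y) :=
              mul_le_mul_of_nonneg_left u1 (mul_nonneg hη'.1 hkp)
          _ ≤ 1 * kk e x y * (|K| * n y + h y) := by
              apply mul_le_mul_of_nonneg_right _ u2
              exact mul_le_mul_of_nonneg_right hη'.2 hkp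
          _ = _ := by ring
      have t2 : n y * E y ≤ n y * (6 * M / δ ^ 2 + M * kk e x y) :=
        mul_le_mul_of_nonneg_left ((le_abs_self _).trans hE') hny
      refine (add_le_add t1 t2).trans ?_
      have hq : 0 ≤ 6 * M / δ ^ 2 := by positivity
      rw [hC]
      have p1 : 0 ≤ kk e x y * n y := mul_nonneg hkp hny
      have p2 : 0 ≤ kk e x y * h y := mul_nonneg hkp hhy
      have p3 := abs_nonneg K
      nlinarith [mul_nonneg p3 p1, mul_nonneg hM0 p1, mul_nonneg hq p1, mul_nonneg p3 p2,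
        mul_nonneg hM0 p2, mul_nonneg hq p2, mul_nonneg p3 hny, mul_nonneg hM0 hny,
        mul_nonneg hq hny, mul_nonneg p3 hhy, mul_nonneg hM0 hhy, mul_nonneg hq hhy]
    · rw [Set.indicator_of_notMem hy]
      show η y * kk e x y * (K * n y + h y) + n y * E y ≤ 0
      rw [hE0 y hy, (hη0 y hy).self_of_nhds]
      simp
  -- left side
  have hleft : (volume.real (closedBall x e))⁻¹ * ∫ y in closedBall x e, n y ≤
      ∫ y, n y * (η y * (3 * e ^ 2 / ss e x y ^ 5)) := by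
    have hvol : volume.real (closedBall x e) = e ^ 3 * (Real.pi * 4 / 3) := by
      rw [Measure.real, EuclideanSpace.volume_closedBall_fin_three]
      have : (0 : ℝ) ≤ Real.pi * 4 / 3 := by positivity
      simp [ENNReal.toReal_ofReal this, ENNReal.toReal_ofReal he.le]
    have hcb : MeasurableSet (closedBall x e) := measurableSet_closedBall
    rw [← integral_const_mul, ← integral_indicator hcb]
    apply integral_mono_ae ((hni.const_mul _).indicator hcb) iT
    filter_upwards [hn] with y hny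
    by_cases hy : y ∈ closedBall x e
    · rw [Set.indicator_of_mem hy, mul_comm]
      apply mul_le_mul_of_nonneg_left _ hny
      have hye : ‖y - x‖ ≤ e := by simpa [dist_eq_norm] using hy
      have hη1' : η y = 1 := (hη1 x hx1 hx2 y (hye.trans_lt heδ)).self_of_nhds
      rw [hη1', one_mul, hvol]
      have hsp := ss_pos he x y
      have hss : ss e x y ^ 2 ≤ 2 * e ^ 2 := by
        rw [Vale.Agent.P363.R.H10.ss_sq]
        nlinarith [norm_nonneg (y - x)]
      have hss5 : ss e x y ^ 5 ≤ 6 * e ^ 5 := by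
        have h4 : ss e x y ^ 4 ≤ 4 * e ^ 4 := by
          calc ss e x y ^ 4 = (ss e x y ^ 2) ^ 2 := by ring
            _ ≤ (2 * e ^ 2) ^ 2 := by gcongr
            _ = _ := by ring
        have h5 : ss e x y ≤ 3 / 2 * e := by
          apply le_of_sq_le_sq _ (by positivity)
          nlinarith [sq_nonneg e]
        calc ss e x y ^ 5 = ss e x y ^ 4 * ss e x y := by ring
          _ ≤ (4 * e ^ 4) * (3 / 2 * e) := by gcongr
          _ = _ := by ring
      rw [inv_eq_one_div, div_le_div_iff₀ (by positivity) (by positivity), one_mul]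
      have hpi := Real.pi_gt_three
      have he5 : 0 < e ^ 5 := by positivity
      calc ss e x y ^ 5 ≤ 6 * e ^ 5 := hss5
        _ ≤ 3 * e ^ 2 * (e ^ 3 * (Real.pi * 4 / 3)) := by nlinarith
    · rw [Set.indicator_of_notMem hy]
      have hsp := ss_pos he x y
      have := (hηI y).1
      positivity
  exact hleft.trans (hmain.trans hright)

/-- **PB** -/
theorem pot_bound {r₁ r₂ R₂ R₁ : ℝ} (_h0 : 0 ≤ r₁) (h1 : r₁ < r₂) (h3 : R₂ < R₁) (K : ℝ) :
    ∃ C : ℝ, ∀ n h : R3 → ℝ, (∀ᵐ x, 0 ≤ n x) → (∀ᵐ x, 0 ≤ h x) → Integrable n → Integrable h →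
      SubSol r₁ R₁ K n h →
      ∀ᵐ x, r₂ ≤ ‖x‖ → ‖x‖ ≤ R₂ → ENNReal.ofReal (n x) ≤
        ENNReal.ofReal C * ∫⁻ y in sh r₁ R₁, ENNReal.ofReal ((1 + 1 / ‖x - y‖) * (n y + h y)) := by
  obtain ⟨C, δ, hC0, hδ, H⟩ := key_ineq h1 h3 K
  refine ⟨C, fun n h hn hh hni hhi hsub => ?_⟩
  have hleb := IsUnifLocDoublingMeasure.ae_tendsto_average (μ := (volume : Measure R3))
    hni.locallyIntegrable 1
  filter_upwards [hleb] with x hx hx1 hx2
  -- radii
  set ε : ℕ → ℝ := fun m => 1 / ((m : ℝ) + 1) with hε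
  have hεpos : ∀ m, 0 < ε m := fun m => by positivity
  have hεlim : Tendsto ε atTop (𝓝 0) := tendsto_one_div_add_atTop_nhds_zero_nat
  have hεw : Tendsto ε atTop (𝓝[>] 0) :=
    tendsto_nhdsWithin_iff.2 ⟨hεlim, Eventually.of_forall hεpos⟩
  have ht := hx (fun _ : ℕ => x) ε hεw (Eventually.of_forall fun m => by
    simp [(hεpos m).le])
  have hbound : ∀ᶠ m in atTop, ENNReal.ofReal (⨍ y in closedBall x (ε m), n y) ≤
      ENNReal.ofReal C *
        ∫⁻ y in sh r₁ R₁, ENNReal.ofReal ((1 + 1 / ‖x - y‖) * (n y + h y)) := by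
    filter_upwards [hεlim.eventually (gt_mem_nhds hδ)] with m hm
    have h4 := H n h hn hh hni hhi hsub x hx1 hx2 (ε m) (hεpos m) hm
    rw [setAverage_eq, smul_eq_mul]
    refine (ENNReal.ofReal_le_ofReal h4).trans ?_
    have hkkb : ∀ y, ‖kk (ε m) x y‖ ≤ 1 / ε m := fun y => by
      rw [Real.norm_of_nonneg (kk_pos (hεpos m) x y).le]; exact kk_le' (hεpos m) x y
    have iR : Integrable (fun y => C * ((1 + kk (ε m) x y) * (n y + h y))) := by
      refine Integrable.const_mul ?_ C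
      refine (hni.add hhi).bdd_mul (c := 1 + 1 / ε m)
        ((continuous_const.add (kk_contDiff (hεpos m) x).continuous).aestronglyMeasurable)
        (Eventually.of_forall fun y => ?_)
      calc ‖1 + kk (ε m) x y‖ ≤ ‖(1 : ℝ)‖ + ‖kk (ε m) x y‖ := norm_add_le _ _
        _ ≤ 1 + 1 / ε m := by rw [norm_one]; exact add_le_add_right (hkkb y) 1
    rw [ofReal_integral_eq_lintegral_ofReal iR.integrableOn]
    · rw [← lintegral_const_mul' _ _ ENNReal.ofReal_ne_top]
      apply lintegral_mono_ae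
      have hne : ∀ᵐ y : R3, y ≠ x := by
        rw [ae_iff]; simp
      filter_upwards [ae_restrict_of_ae hn, ae_restrict_of_ae hh, ae_restrict_of_ae hne]
        with y hny hhy hyx
      rw [← ENNReal.ofReal_mul hC0]
      apply ENNReal.ofReal_le_ofReal
      apply mul_le_mul_of_nonneg_left _ hC0
      apply mul_le_mul_of_nonneg_right _ (add_nonneg hny hhy)
      have := kk_le (hεpos m) hyx
      rw [norm_sub_rev] at this
      linarith
    · filter_upwards [ae_restrict_of_ae hn, ae_restrict_of_ae hh] with y hny hhy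
      have := (kk_pos (hεpos m) x y).le
      positivity
  exact le_of_tendsto ((ENNReal.continuous_ofReal.tendsto _).comp ht) hbound

/-! ### P1 and P2 -/

/-- the square of the Coulomb kernel is integrable on balls, uniformly in the centre -/
theorem kernel_sq_bound (R₁ : ℝ) : ∃ A : ℝ≥0∞, A ≠ ⊤ ∧ ∀ x : R3, ‖x‖ ≤ R₁ →
    ∫⁻ y in ball (0 : R3) R₁, ENNReal.ofReal (1 + 1 / ‖x - y‖) ^ 2 ≤ A := by
  set A : ℝ≥0∞ := ∫⁻ z in ball (0 : R3) (2 * R₁), ENNReal.ofReal ((1 + 1 / ‖z‖) ^ 2) with hA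
  refine ⟨A, ?_, fun x hx => ?_⟩
  · have hint : IntegrableOn (fun z : R3 => (1 + 1 / ‖z‖) ^ 2) (ball 0 (2 * R₁)) := by
      have h := (integrableOn_fun_norm_addHaar (volume : Measure R3) (f := fun y => (1 + 1 / y) ^ 2)
        (r := 2 * R₁)).2
      apply h
      have hd : Module.finrank ℝ R3 = 3 := by simp
      rw [hd]
      have h2 : IntegrableOn (fun y : ℝ => (y + 1) ^ 2) (Set.Ioo 0 (2 * R₁)) := by
        have hc : Continuous (fun y : ℝ => (y + 1) ^ 2) := by fun_prop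
        exact (hc.integrableOn_Icc (a := 0) (b := 2 * R₁)).mono_set Set.Ioo_subset_Icc_self
      refine h2.congr_fun ?_ measurableSet_Ioo
      intro y hy
      have : y ≠ 0 := ne_of_gt hy.1
      simp only [smul_eq_mul]
      field_simp
      ring
    have h3 := hint.2
    rw [hasFiniteIntegral_iff_ofReal (Eventually.of_forall fun z => sq_nonneg _)] at h3
    exact h3.ne
  · have e1 : ∀ y : R3, ENNReal.ofReal (1 + 1 / ‖x - y‖) ^ 2
        = ENNReal.ofReal ((1 + 1 / ‖x - y‖) ^ 2) := by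
      intro y; rw [ENNReal.ofReal_pow (by positivity)]
    simp_rw [e1]
    rw [hA, ← lintegral_indicator measurableSet_ball, ← lintegral_indicator measurableSet_ball]
    have h4 := lintegral_sub_left_eq_self (μ := (volume : Measure R3))
      (fun z => (ball (0 : R3) (2 * R₁)).indicator
        (fun z => ENNReal.ofReal ((1 + 1 / ‖z‖) ^ 2)) z) x
    rw [← h4]
    apply lintegral_mono
    intro y
    by_cases hy : y ∈ ball (0 : R3) R₁
    · have hxy : x - y ∈ ball (0 : R3) (2 * R₁) := by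
        have hy' : ‖y‖ < R₁ := by simpa using hy
        have : ‖x - y‖ ≤ ‖x‖ + ‖y‖ := norm_sub_le x y
        simp only [mem_ball, dist_zero_right]
        linarith
      rw [Set.indicator_of_mem hy]
      show _ ≤ (ball (0 : R3) (2 * R₁)).indicator
        (fun z => ENNReal.ofReal ((1 + 1 / ‖z‖) ^ 2)) (x - y)
      rw [Set.indicator_of_mem hxy]
    · rw [Set.indicator_of_notMem hy]
      exact zero_le

theorem sh_subset_ball (r R : ℝ) : sh r R ⊆ ball (0 : R3) R := by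
  intro x hx
  simpa using hx.2

theorem cs_ennreal {μ : Measure R3} {f g : R3 → ℝ≥0∞} (hf : AEMeasurable f μ)
    (hg : AEMeasurable g μ) :
    (∫⁻ y, f y * g y ∂μ) ^ 2 ≤ (∫⁻ y, f y ^ 2 ∂μ) * ∫⁻ y, g y ^ 2 ∂μ := by
  have h := ENNReal.lintegral_mul_le_Lp_mul_Lq μ (p := 2) (q := 2)
    (by constructor <;> norm_num) hf hg
  have h2 : (∫⁻ y, f y * g y ∂μ) ^ 2 ≤ ((∫⁻ a, f a ^ (2 : ℝ) ∂μ) ^ (1 / (2 : ℝ)) *
      (∫⁻ a, g a ^ (2 : ℝ) ∂μ) ^ (1 / (2 : ℝ))) ^ 2 := by
    gcongr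
    exact h
  refine h2.trans (le_of_eq ?_)
  rw [mul_pow, ← ENNReal.rpow_natCast, ← ENNReal.rpow_mul, ← ENNReal.rpow_natCast,
    ← ENNReal.rpow_mul]
  norm_num

/-- P2. `L² → L^∞`. -/
theorem loc_sup {r₁ r₂ R₂ R₁ : ℝ} (h0 : 0 ≤ r₁) (h1 : r₁ < r₂) (h3 : R₂ < R₁) (K : ℝ) :
    ∃ C : ℝ, ∀ n h : R3 → ℝ, (∀ᵐ x, 0 ≤ n x) → (∀ᵐ x, 0 ≤ h x) → Integrable n → Integrable h →
      SubSol r₁ R₁ K n h →
      ∀ᵐ x, x ∈ sh r₂ R₂ → ENNReal.ofReal (n x ^ 2) ≤
        ENNReal.ofReal C * ∫⁻ x in sh r₁ R₁, ENNReal.ofReal ((n x + h x) ^ 2) := by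
  obtain ⟨C, hC⟩ := pot_bound h0 h1 h3 K
  obtain ⟨A, hA, hAb⟩ := kernel_sq_bound R₁
  refine ⟨C ^ 2 * A.toReal, fun n h hn hh hni hhi hsub => ?_⟩
  have hm1 : AEMeasurable (fun y => ENNReal.ofReal (n y + h y)) (volume.restrict (sh r₁ R₁)) :=
    (hni.add hhi).aestronglyMeasurable.aemeasurable.ennreal_ofReal.restrict
  filter_upwards [hC n h hn hh hni hhi hsub, hn] with x hx hnx hxs
  have h5 := hx hxs.1.le hxs.2.le
  have hm2 : AEMeasurable (fun y => ENNReal.ofReal (1 + 1 / ‖x - y‖)) (volume.restrict (sh r₁ R₁)) := by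
    apply Measurable.aemeasurable
    fun_prop
  have e2 : ∫⁻ y in sh r₁ R₁, ENNReal.ofReal ((1 + 1 / ‖x - y‖) * (n y + h y))
      = ∫⁻ y in sh r₁ R₁, ENNReal.ofReal (1 + 1 / ‖x - y‖) * ENNReal.ofReal (n y + h y) := by
    congr 1; funext y
    rw [ENNReal.ofReal_mul (by positivity)]
  rw [ENNReal.ofReal_pow hnx]
  calc ENNReal.ofReal (n x) ^ 2 ≤ (ENNReal.ofReal C *
        ∫⁻ y in sh r₁ R₁, ENNReal.ofReal ((1 + 1 / ‖x - y‖) * (n y + h y))) ^ 2 := by gcongr
    _ = ENNReal.ofReal C ^ 2 * (∫⁻ y in sh r₁ R₁, ENNReal.ofReal (1 + 1 / ‖x - y‖) *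
          ENNReal.ofReal (n y + h y)) ^ 2 := by rw [mul_pow, e2]
    _ ≤ ENNReal.ofReal C ^ 2 * ((∫⁻ y in sh r₁ R₁, ENNReal.ofReal (1 + 1 / ‖x - y‖) ^ 2) *
          ∫⁻ y in sh r₁ R₁, ENNReal.ofReal (n y + h y) ^ 2) := by
        gcongr
        exact cs_ennreal hm2 hm1
    _ ≤ ENNReal.ofReal C ^ 2 * (A * ∫⁻ y in sh r₁ R₁, ENNReal.ofReal (n y + h y) ^ 2) := by
        gcongr
        refine le_trans (lintegral_mono_set (sh_subset_ball r₁ R₁)) (hAb x ?_)
        exact (hxs.2.trans h3).le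
    _ ≤ ENNReal.ofReal (C ^ 2 * A.toReal) *
          ∫⁻ x in sh r₁ R₁, ENNReal.ofReal ((n x + h x) ^ 2) := by
        rw [ENNReal.ofReal_mul (sq_nonneg C), ENNReal.ofReal_toReal hA, ← mul_assoc]
        gcongr
        · rcases le_or_gt 0 C with hc | hc
          · rw [ENNReal.ofReal_pow hc]
          · rw [ENNReal.ofReal_of_nonpos hc.le]; simp
        · rcases le_or_gt 0 (n _ + h _) with hc | hc
          · rw [ENNReal.ofReal_pow hc]
          · rw [ENNReal.ofReal_of_nonpos hc.le]; simp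

/-- Coulomb-type kernel -/
def ck (x y : R3) : ℝ≥0∞ := ENNReal.ofReal (1 + 1 / ‖x - y‖)

theorem measurable_ck : Measurable (fun p : R3 × R3 => ck p.1 p.2) := by
  unfold ck; fun_prop

theorem measurable_ck_left (x : R3) : Measurable (fun y => ck x y) := by
  unfold ck; fun_prop

theorem measurable_ck_sq_right (y : R3) : Measurable (fun x => ck x y ^ 2) := by
  unfold ck; fun_prop

theorem measurable_ck_sq : Measurable (fun p : R3 × R3 => ck p.1 p.2 ^ 2) :=
  measurable_ck.pow_const 2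

theorem kernel_swap {r₁ r₂ R₂ R₁ : ℝ} (h3 : R₂ < R₁) {A : ℝ≥0∞}
    (hAb : ∀ x : R3, ‖x‖ ≤ R₁ → ∫⁻ y in ball (0 : R3) R₁, ENNReal.ofReal (1 + 1 / ‖x - y‖) ^ 2 ≤ A)
    {F : R3 → ℝ≥0∞} (hmF : AEMeasurable F volume) :
    ∫⁻ x in sh r₂ R₂, ∫⁻ y in sh r₁ R₁, ck x y ^ 2 * F y ≤ A * ∫⁻ y in sh r₁ R₁, F y := by
  have hm : AEMeasurable (fun p : R3 × R3 => ck p.1 p.2 ^ 2 * F p.2)
      ((volume.restrict (sh r₂ R₂)).prod (volume.restrict (sh r₁ R₁))) :=
    measurable_ck_sq.aemeasurable.mul hmF.restrict.comp_snd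
  rw [lintegral_lintegral_swap hm, ← lintegral_const_mul'' _ hmF.restrict]
  apply setLIntegral_mono_ae' (isOpen_sh r₁ R₁).measurableSet
  filter_upwards with y hy
  rw [lintegral_mul_const _ (measurable_ck_sq_right y)]
  gcongr
  calc ∫⁻ x in sh r₂ R₂, ck x y ^ 2
      ≤ ∫⁻ x in ball (0 : R3) R₁, ck x y ^ 2 :=
        lintegral_mono_set ((sh_subset_ball r₂ R₂).trans (ball_subset_ball h3.le))
    _ = ∫⁻ x in ball (0 : R3) R₁, ENNReal.ofReal (1 + 1 / ‖y - x‖) ^ 2 := by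
        congr 1; funext x
        rw [ck, norm_sub_rev]
    _ ≤ A := hAb y hy.2.le

theorem kernel_point {r₁ R₁ : ℝ} {C : ℝ} {n h : R3 → ℝ} {x : R3}
    (hmF : AEMeasurable (fun y => ENNReal.ofReal (n y + h y)) volume) (hnx : 0 ≤ n x)
    (hx : ENNReal.ofReal (n x) ≤ ENNReal.ofReal C *
        ∫⁻ y in sh r₁ R₁, ENNReal.ofReal ((1 + 1 / ‖x - y‖) * (n y + h y))) :
    ENNReal.ofReal (n x ^ 2) ≤ ENNReal.ofReal C ^ 2 *
      ((∫⁻ y in sh r₁ R₁, ck x y ^ 2 * ENNReal.ofReal (n y + h y)) *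
        ∫⁻ y in sh r₁ R₁, ENNReal.ofReal (n y + h y)) := by
  have e2 : ∫⁻ y in sh r₁ R₁, ENNReal.ofReal ((1 + 1 / ‖x - y‖) * (n y + h y))
      = ∫⁻ y in sh r₁ R₁, (ck x y * ENNReal.ofReal (n y + h y) ^ (1 / 2 : ℝ)) *
          ENNReal.ofReal (n y + h y) ^ (1 / 2 : ℝ) := by
    congr 1; funext y
    rw [ENNReal.ofReal_mul (by positivity), mul_assoc, ← ENNReal.rpow_add_of_nonneg _ _
      (by norm_num) (by norm_num), show (1 / 2 : ℝ) + 1 / 2 = 1 by norm_num, ENNReal.rpow_one, ck]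
  have hmkx : AEMeasurable (fun y => ck x y) (volume.restrict (sh r₁ R₁)) :=
    (measurable_ck_left x).aemeasurable
  have hmFr : AEMeasurable (fun y => ENNReal.ofReal (n y + h y)) (volume.restrict (sh r₁ R₁)) :=
    hmF.restrict
  have hcs := cs_ennreal (μ := volume.restrict (sh r₁ R₁))
    (hmkx.mul (hmFr.pow_const (1 / 2 : ℝ))) (hmFr.pow_const (1 / 2 : ℝ))
  have e4 : ∀ y, (ENNReal.ofReal (n y + h y) ^ (1 / 2 : ℝ)) ^ 2 = ENNReal.ofReal (n y + h y) := by
    intro y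
    rw [← ENNReal.rpow_natCast (ENNReal.ofReal (n y + h y) ^ (1 / 2 : ℝ)), ← ENNReal.rpow_mul]
    norm_num
  simp only [Pi.mul_apply, mul_pow, e4] at hcs
  rw [ENNReal.ofReal_pow hnx]
  calc ENNReal.ofReal (n x) ^ 2 ≤ (ENNReal.ofReal C *
        ∫⁻ y in sh r₁ R₁, ENNReal.ofReal ((1 + 1 / ‖x - y‖) * (n y + h y))) ^ 2 := by gcongr
    _ = ENNReal.ofReal C ^ 2 * (∫⁻ y in sh r₁ R₁,
          (ck x y * ENNReal.ofReal (n y + h y) ^ (1 / 2 : ℝ)) *
          ENNReal.ofReal (n y + h y) ^ (1 / 2 : ℝ)) ^ 2 := by rw [mul_pow, e2]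
    _ ≤ _ := by gcongr

/-- P1. `L¹ → L²`. -/
theorem loc_L2 {r₁ r₂ R₂ R₁ : ℝ} (h0 : 0 ≤ r₁) (h1 : r₁ < r₂) (h3 : R₂ < R₁) (K : ℝ) :
    ∃ C : ℝ, ∀ n h : R3 → ℝ, (∀ᵐ x, 0 ≤ n x) → (∀ᵐ x, 0 ≤ h x) → Integrable n → Integrable h →
      SubSol r₁ R₁ K n h →
      ∫⁻ x in sh r₂ R₂, ENNReal.ofReal (n x ^ 2) ≤
        ENNReal.ofReal C * (∫⁻ x in sh r₁ R₁, ENNReal.ofReal (n x + h x)) ^ 2 := by
  obtain ⟨C, hC⟩ := pot_bound h0 h1 h3 K
  obtain ⟨A, hA, hAb⟩ := kernel_sq_bound R₁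
  refine ⟨C ^ 2 * A.toReal, fun n h hn hh hni hhi hsub => ?_⟩
  have hmF : AEMeasurable (fun y => ENNReal.ofReal (n y + h y)) volume :=
    (hni.add hhi).aestronglyMeasurable.aemeasurable.ennreal_ofReal
  have hpt : ∀ᵐ x, x ∈ sh r₂ R₂ → ENNReal.ofReal (n x ^ 2) ≤
      ENNReal.ofReal C ^ 2 * ((∫⁻ y in sh r₁ R₁, ck x y ^ 2 * ENNReal.ofReal (n y + h y)) *
        ∫⁻ y in sh r₁ R₁, ENNReal.ofReal (n y + h y)) := by
    filter_upwards [hC n h hn hh hni hhi hsub, hn] with x hx hnx hxs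
    exact kernel_point hmF hnx (hx hxs.1.le hxs.2.le)
  have hstep : ∫⁻ x in sh r₂ R₂, ENNReal.ofReal (n x ^ 2) ≤
      ∫⁻ x in sh r₂ R₂, ENNReal.ofReal C ^ 2 *
        ((∫⁻ y in sh r₁ R₁, ck x y ^ 2 * ENNReal.ofReal (n y + h y)) *
          ∫⁻ y in sh r₁ R₁, ENNReal.ofReal (n y + h y)) := by
    apply lintegral_mono_ae
    exact (ae_restrict_iff' (isOpen_sh r₂ R₂).measurableSet).2 hpt
  refine hstep.trans ?_
  have hswap := kernel_swap (r₁ := r₁) (r₂ := r₂) h3 hAb hmF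
  have hmeas : AEMeasurable (fun x => ∫⁻ y in sh r₁ R₁, ck x y ^ 2 * ENNReal.ofReal (n y + h y))
      (volume.restrict (sh r₂ R₂)) := by
    have h6 : AEMeasurable (fun p : R3 × R3 => ck p.1 p.2 ^ 2 * ENNReal.ofReal (n p.2 + h p.2))
        ((volume.restrict (sh r₂ R₂)).prod (volume.restrict (sh r₁ R₁))) :=
      measurable_ck_sq.aemeasurable.mul hmF.restrict.comp_snd
    exact h6.lintegral_prod_right'
  rw [lintegral_const_mul'' _ (hmeas.mul_const _), lintegral_mul_const'' _ hmeas]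
  have hCC : ENNReal.ofReal C ^ 2 ≤ ENNReal.ofReal (C ^ 2) := by
    rcases le_or_gt 0 C with hc | hc
    · rw [ENNReal.ofReal_pow hc]
    · rw [ENNReal.ofReal_of_nonpos hc.le]; simp
  calc ENNReal.ofReal C ^ 2 *
        ((∫⁻ x in sh r₂ R₂, ∫⁻ y in sh r₁ R₁, ck x y ^ 2 * ENNReal.ofReal (n y + h y)) *
        ∫⁻ y in sh r₁ R₁, ENNReal.ofReal (n y + h y))
      ≤ ENNReal.ofReal (C ^ 2) * ((A * ∫⁻ y in sh r₁ R₁, ENNReal.ofReal (n y + h y)) *
          ∫⁻ y in sh r₁ R₁, ENNReal.ofReal (n y + h y)) := by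
        gcongr
    _ = _ := by
        rw [ENNReal.ofReal_mul (sq_nonneg C), ENNReal.ofReal_toReal hA]
        ring

end

end Vale.Agent.P363.H849
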