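import Vale.Agent.P363.H849.PotDefs
import Vale.Agent.P363.R.H10.Calc

/-! Calculus for the regularised Coulomb kernel: smoothness, Laplacian of a product. -/

namespace Vale.Agent.P363.H849

open MeasureTheory Filter Topology
open Vale.Agent.P363.Stmt (R3)
open Vale.Agent.P363.R.Sob
open Vale.Agent.P363.R.B5
open Vale.Agent.P363.R.H10 (ss kk kk1 kk2 ei)
open scoped ContDiff ENNReal

noncomputable section

theorem ss_contDiff {e : ℝ} (he : 0 < e) (a : R3) : ContDiff ℝ ∞ (ss e a) := by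
  unfold ss
  have h1 : ContDiff ℝ ∞ (fun y : R3 => ‖y - a‖ ^ 2 + e ^ 2) :=
    ((contDiff_id.sub contDiff_const).norm_sq ℝ).add contDiff_const
  exact h1.sqrt (fun x => by positivity)

theorem kk_contDiff {e : ℝ} (he : 0 < e) (a : R3) : ContDiff ℝ ∞ (kk e a) := by
  unfold kk
  exact contDiff_const.div (ss_contDiff he a) (fun x => (Vale.Agent.P363.R.H10.ss_pos he a x).ne')

theorem kk1_contDiff {e : ℝ} (he : 0 < e) (a : R3) (i : Fin 3) : ContDiff ℝ ∞ (kk1 e a i) := by
  unfold kk1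
  refine ContDiff.div ?_ ((ss_contDiff he a).pow 3)
    (fun x => pow_ne_zero 3 (Vale.Agent.P363.R.H10.ss_pos he a x).ne')
  exact ((EuclideanSpace.proj (𝕜 := ℝ) i : R3 →L[ℝ] ℝ).contDiff.sub contDiff_const).neg

theorem kk_fderiv {e : ℝ} (he : 0 < e) (a y : R3) (i : Fin 3) :
    fderiv ℝ (kk e a) y (EuclideanSpace.single i 1) = kk1 e a i y := by
  have h1 := Vale.Agent.P363.R.H10.hasLineDerivAt_kk (Vale.Agent.P363.R.H10.ss_pos he a y) i
  have h2 : HasLineDerivAt ℝ (kk e a) (fderiv ℝ (kk e a) y (ei i)) y (ei i) :=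
    (((kk_contDiff he a).differentiable (by simp)) y).hasFDerivAt.hasLineDerivAt _
  exact h2.unique h1

theorem kk1_fderiv {e : ℝ} (he : 0 < e) (a y : R3) (i : Fin 3) :
    fderiv ℝ (kk1 e a i) y (EuclideanSpace.single i 1) = kk2 e a i y := by
  have h1 := Vale.Agent.P363.R.H10.hasLineDerivAt_kk1 (Vale.Agent.P363.R.H10.ss_pos he a y) i
  have h2 : HasLineDerivAt ℝ (kk1 e a i) (fderiv ℝ (kk1 e a i) y (ei i)) y (ei i) :=
    (((kk1_contDiff he a i).differentiable (by simp)) y).hasFDerivAt.hasLineDerivAt _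
  exact h2.unique h1

theorem lap_kk {e : ℝ} (he : 0 < e) (a y : R3) : lap (kk e a) y = -(3 * e ^ 2 / ss e a y ^ 5) := by
  unfold lap
  have h : ∀ i : Fin 3, (fun z => fderiv ℝ (kk e a) z (EuclideanSpace.single i 1)) = kk1 e a i := by
    intro i; funext z; exact kk_fderiv he a z i
  simp only [h, kk1_fderiv he, Fin.sum_univ_three]
  exact Vale.Agent.P363.R.H10.sum_kk2 (Vale.Agent.P363.R.H10.ss_pos he a y)

theorem fderiv_mul_dir {f g : R3 → ℝ} {x v : R3} (hf : DifferentiableAt ℝ f x)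
    (hg : DifferentiableAt ℝ g x) :
    fderiv ℝ (fun z => f z * g z) x v = f x * fderiv ℝ g x v + g x * fderiv ℝ f x v := by
  have h := (hf.hasFDerivAt.mul hg.hasFDerivAt).fderiv
  rw [show (fun z => f z * g z) = f * g from rfl, h]
  simp [smul_eq_mul]

/-- Laplacian of a product -/
theorem lap_mul {f g : R3 → ℝ} (hf : ContDiff ℝ ∞ f) (hg : ContDiff ℝ ∞ g) (x : R3) :
    lap (fun z => f z * g z) x = f x * lap g x
      + 2 * (∑ k : Fin 3, fderiv ℝ f x (EuclideanSpace.single k 1) *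
          fderiv ℝ g x (EuclideanSpace.single k 1)) + g x * lap f x := by
  unfold lap
  have df : ∀ v : R3, ContDiff ℝ ∞ (fun z => fderiv ℝ f z v) := fun v =>
    (hf.fderiv_right (by simp)).clm_apply contDiff_const
  have dg : ∀ v : R3, ContDiff ℝ ∞ (fun z => fderiv ℝ g z v) := fun v =>
    (hg.fderiv_right (by simp)).clm_apply contDiff_const
  have hfd := hf.differentiable (by simp : (∞ : WithTop ℕ∞) ≠ 0)
  have hgd := hg.differentiable (by simp : (∞ : WithTop ℕ∞) ≠ 0)
  have h1 : ∀ v : R3, (fun z => fderiv ℝ (fun z => f z * g z) z v)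
      = fun z => f z * fderiv ℝ g z v + g z * fderiv ℝ f z v := by
    intro v; funext z; exact fderiv_mul_dir (hfd z) (hgd z)
  have h2 : ∀ v : R3, fderiv ℝ (fun z => fderiv ℝ (fun z => f z * g z) z v) x v
      = f x * fderiv ℝ (fun z => fderiv ℝ g z v) x v + 2 * (fderiv ℝ f x v * fderiv ℝ g x v)
        + g x * fderiv ℝ (fun z => fderiv ℝ f z v) x v := by
    intro v
    rw [h1 v]
    have a1 : DifferentiableAt ℝ (fun z => f z * fderiv ℝ g z v) x :=
      (hfd x).mul ((dg v).differentiable (by simp) x)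
    have a2 : DifferentiableAt ℝ (fun z => g z * fderiv ℝ f z v) x :=
      (hgd x).mul ((df v).differentiable (by simp) x)
    rw [fderiv_fun_add a1 a2, _root_.add_apply,
      fderiv_mul_dir (hfd x) ((dg v).differentiable (by simp) x),
      fderiv_mul_dir (hgd x) ((df v).differentiable (by simp) x)]
    ring
  simp only [h2, Finset.sum_add_distrib, ← Finset.mul_sum]

theorem lap_continuous {f : R3 → ℝ} (hf : ContDiff ℝ ∞ f) : Continuous (lap f) := by
  unfold lap
  refine continuous_finsetSum _ fun k _ => ?_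
  have d1 : ContDiff ℝ ∞ (fun z => fderiv ℝ f z (EuclideanSpace.single k 1)) :=
    (hf.fderiv_right (by simp)).clm_apply contDiff_const
  exact (d1.continuous_fderiv (by simp)).clm_apply continuous_const

/-- `(|x-y|²+e²)^{-1/4}` -/
def qk (e : ℝ) (a y : R3) : ℝ := Real.sqrt (kk e a y)

theorem kk_pos {e : ℝ} (he : 0 < e) (a y : R3) : 0 < kk e a y := by
  unfold kk
  have := Vale.Agent.P363.R.H10.ss_pos he a y
  positivity

theorem qk_contDiff {e : ℝ} (he : 0 < e) (a : R3) : ContDiff ℝ ∞ (qk e a) := by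
  unfold qk
  exact (kk_contDiff he a).sqrt (fun x => (kk_pos he a x).ne')

theorem qk_sq {e : ℝ} (he : 0 < e) (a y : R3) : qk e a y ^ 2 = kk e a y :=
  Real.sq_sqrt (kk_pos he a y).le

theorem kk_le {e : ℝ} (he : 0 < e) {a y : R3} (h : y ≠ a) : kk e a y ≤ 1 / ‖y - a‖ := by
  unfold kk
  have h1 : 0 < ‖y - a‖ := norm_pos_iff.2 (sub_ne_zero.2 h)
  exact one_div_le_one_div_of_le h1 (Vale.Agent.P363.R.H10.norm_le_ss e a y)

theorem kk_le' {e : ℝ} (he : 0 < e) (a y : R3) : kk e a y ≤ 1 / e := by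
  unfold kk
  exact one_div_le_one_div_of_le he (Vale.Agent.P363.R.H10.le_ss he.le a y)

theorem abs_kk1_le {e : ℝ} (he : 0 < e) {a y : R3} {δ : ℝ} (hδ : 0 < δ) (h : δ ≤ ‖y - a‖)
    (i : Fin 3) : |kk1 e a i y| ≤ 1 / δ ^ 2 := by
  have hs := Vale.Agent.P363.R.H10.ss_pos he a y
  have h0 := Vale.Agent.P363.R.H10.norm_le_ss e a y
  have h1 : |y i - a i| ≤ ss e a y := by
    have := Vale.Agent.P363.R.H10.abs_coord_le (y - a) i
    simp only [PiLp.sub_apply] at this
    exact this.trans h0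
  have h2 : δ ≤ ss e a y := h.trans h0
  unfold kk1
  rw [abs_div, abs_neg, abs_of_pos (by positivity : 0 < ss e a y ^ 3),
    div_le_div_iff₀ (by positivity) (by positivity), one_mul]
  calc |y i - a i| * δ ^ 2 ≤ ss e a y * ss e a y ^ 2 := by gcongr
    _ = ss e a y ^ 3 := by ring

end

end Vale.Agent.P363.H849
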