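import Vale.Agent.P363.R.Sob.Basic

/-! Definitions for the local potential-theoretic bounds used for `b5_shell`
(same as in `R/B5/h924/Spec.lean`). -/

namespace Vale.Agent.P363.R.B5

open MeasureTheory Filter Topology
open Vale.Agent.P363.Stmt (R3)
open Vale.Agent.P363.R.Sob
open scoped ContDiff ENNReal

noncomputable section

/-- open shell -/
def sh (r R : ℝ) : Set R3 := {x | r < ‖x‖ ∧ ‖x‖ < R}

/-- the Laplacian of a smooth function -/
def lap (φ : R3 → ℝ) (x : R3) : ℝ :=
  ∑ k : Fin 3, fderiv ℝ (fun z => fderiv ℝ φ z (EuclideanSpace.single k 1)) x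
    (EuclideanSpace.single k 1)

/-- `-Δ n ≤ K n + h` on the shell, tested with squares of test functions. -/
def SubSol (r R K : ℝ) (n h : R3 → ℝ) : Prop :=
  ∀ ψ : R3 → ℝ, Test ψ → (∀ x, x ∉ sh r R → ψ x = 0) →
    -(∫ x, n x * lap (fun y => ψ y ^ 2) x) ≤ ∫ x, ψ x ^ 2 * (K * n x + h x)

end

end Vale.Agent.P363.R.B5
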