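import Vale.Agent.P363.H849.Reg

/-! Polynomials times radial profiles: calculus and integrability. -/

namespace Vale.Agent.P363.H849

open MeasureTheory Set Real Filter Topology
open scoped ENNReal ContDiff
open Vale.Agent.P363.R.Sob (IsWD Test)

noncomputable section

abbrev Poly : Type := MvPolynomial (Fin 3) ℝ

/-- Evaluation of a polynomial at a point of `ℝ³`. -/
def ev (p : Poly) (x : R3) : ℝ := MvPolynomial.eval (fun i => x i) p

theorem ev_add (p q : Poly) (x : R3) : ev (p + q) x = ev p x + ev q x := by simp [ev]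
theorem ev_sub (p q : Poly) (x : R3) : ev (p - q) x = ev p x - ev q x := by simp [ev]
theorem ev_mul (p q : Poly) (x : R3) : ev (p * q) x = ev p x * ev q x := by simp [ev]
theorem ev_smul (c : ℝ) (p : Poly) (x : R3) : ev (c • p) x = c * ev p x := by
  simp [ev, MvPolynomial.smul_eval]
theorem ev_zero (x : R3) : ev 0 x = 0 := by simp [ev]
theorem ev_one (x : R3) : ev 1 x = 1 := by simp [ev]
theorem ev_X (i : Fin 3) (x : R3) : ev (MvPolynomial.X i) x = x i := by simp [ev]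
theorem ev_C (c : ℝ) (x : R3) : ev (MvPolynomial.C c) x = c := by simp [ev]
theorem ev_sum {ι : Type*} (s : Finset ι) (p : ι → Poly) (x : R3) :
    ev (∑ i ∈ s, p i) x = ∑ i ∈ s, ev (p i) x := by simp [ev]

theorem ev_contDiff (p : Poly) : ContDiff ℝ ∞ (ev p) := by
  induction p using MvPolynomial.induction_on with
  | C a => 
    have : ev (MvPolynomial.C a) = fun _ => a := by funext x; exact ev_C a x
    rw [this]; exact contDiff_const
  | add p q hp hq =>
    have : ev (p + q) = fun x => ev p x + ev q x := by funext x; exact ev_add p q x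
    rw [this]; exact hp.add hq
  | mul_X p i hp =>
    have : ev (p * MvPolynomial.X i) = fun x => ev p x * x i := by
      funext x; rw [ev_mul, ev_X]
    rw [this]
    refine hp.mul ?_
    exact (EuclideanSpace.proj (𝕜 := ℝ) i : R3 →L[ℝ] ℝ).contDiff

theorem ev_continuous (p : Poly) : Continuous (ev p) := (ev_contDiff p).continuous

/-- the coordinate vectors -/
def e3 (k : Fin 3) : R3 := EuclideanSpace.single k 1

theorem ev_hasFDerivAt (p : Poly) (k : Fin 3) (x : R3) :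
    fderiv ℝ (ev p) x (e3 k) = ev (MvPolynomial.pderiv k p) x := by
  induction p using MvPolynomial.induction_on with
  | C a => 
    have : ev (MvPolynomial.C a) = fun _ => a := by funext x; exact ev_C a x
    rw [this]; simp [ev_zero]
  | add p q hp hq =>
    have : ev (p + q) = fun x => ev p x + ev q x := by funext x; exact ev_add p q x
    rw [this, fderiv_fun_add ((ev_contDiff p).differentiable (by simp) x)
      ((ev_contDiff q).differentiable (by simp) x)]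
    rw [_root_.add_apply, hp, hq, map_add, ev_add]
  | mul_X p i hp =>
    have : ev (p * MvPolynomial.X i) = fun x => ev p x * x i := by
      funext x; rw [ev_mul, ev_X]
    rw [this]
    have h1 : HasFDerivAt (fun x : R3 => x i) (EuclideanSpace.proj (𝕜 := ℝ) i : R3 →L[ℝ] ℝ) x :=
      (EuclideanSpace.proj (𝕜 := ℝ) i : R3 →L[ℝ] ℝ).hasFDerivAt
    have h2 := (((ev_contDiff p).differentiable (by simp) x).hasFDerivAt.mul h1).fderiv
    rw [show (fun x : R3 => ev p x * x i) = (ev p * fun x : R3 => x i) from rfl, h2]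
    simp only [_root_.add_apply, _root_.smul_apply, smul_eq_mul,
      Derivation.leibniz, ev_add, hp]
    have h3 : (EuclideanSpace.proj (𝕜 := ℝ) i : R3 →L[ℝ] ℝ) (e3 k) = if i = k then 1 else 0 := by
      simp [e3]
    rw [h3]
    simp only [MvPolynomial.pderiv_X, ev_mul, ev_X]
    by_cases h : i = k
    · subst h; simp [ev_one]
    · simp [h, Ne.symm h, ev_zero]

/-! ### bounds -/

/-- continuous away from the origin, exponentially bounded -/
def Bd0 (φ : R3 → ℝ) : Prop := (∀ x, x ≠ 0 → ContinuousAt φ x) ∧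
  ∃ A c : ℝ, 0 ≤ A ∧ 0 < c ∧ ∀ x, x ≠ 0 → |φ x| ≤ A * exp (-c * ‖x‖)

/-- continuous away from the origin, bounded by `A e^{-c r}/r` -/
def Bd1 (φ : R3 → ℝ) : Prop := (∀ x, x ≠ 0 → ContinuousAt φ x) ∧
  ∃ A c : ℝ, 0 ≤ A ∧ 0 < c ∧ ∀ x, x ≠ 0 → |φ x| ≤ A * exp (-c * ‖x‖) / ‖x‖

theorem Bd0.bd1 {φ : R3 → ℝ} (h : Bd0 φ) : Bd1 φ := by
  obtain ⟨hc, A, c, hA, hc0, hb⟩ := h
  refine ⟨hc, A * (2 / c), c / 2, by positivity, by positivity, fun x hx => (hb x hx).trans ?_⟩
  have hx0 : 0 < ‖x‖ := norm_pos_iff.2 hx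
  rw [le_div_iff₀ hx0]
  have h1 : c / 2 * ‖x‖ ≤ exp (c / 2 * ‖x‖) := by
    have := Real.add_one_le_exp (c / 2 * ‖x‖)
    linarith
  have h2 : exp (-c * ‖x‖) = exp (-(c / 2) * ‖x‖) * exp (-(c / 2) * ‖x‖) := by
    rw [← Real.exp_add]; ring_nf
  have h3 : exp (-(c / 2) * ‖x‖) * exp (c / 2 * ‖x‖) = 1 := by
    rw [← Real.exp_add]; simp
  have h4 : ‖x‖ * exp (-(c / 2) * ‖x‖) ≤ 2 / c := by
    rw [le_div_iff₀ hc0]
    have h5 : c / 2 * ‖x‖ * exp (-(c / 2) * ‖x‖) ≤ exp (c / 2 * ‖x‖) * exp (-(c / 2) * ‖x‖) :=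
      mul_le_mul_of_nonneg_right h1 (exp_pos _).le
    rw [mul_comm (exp (c / 2 * ‖x‖)), h3] at h5
    linarith
  calc A * exp (-c * ‖x‖) * ‖x‖
      = A * (‖x‖ * exp (-(c / 2) * ‖x‖)) * exp (-(c / 2) * ‖x‖) := by rw [h2]; ring
    _ ≤ A * (2 / c) * exp (-(c / 2) * ‖x‖) := by gcongr

theorem Bd0.div_norm {φ : R3 → ℝ} (h : Bd0 φ) : Bd1 (fun x => φ x / ‖x‖) := by
  obtain ⟨hc, A, c, hA, hc0, hb⟩ := h
  refine ⟨fun x hx => (hc x hx).div continuous_norm.continuousAt (norm_ne_zero_iff.2 hx),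
    A, c, hA, hc0, fun x hx => ?_⟩
  rw [abs_div, abs_norm]
  gcongr
  exact hb x hx

theorem Bd0.add {φ ψ : R3 → ℝ} (h : Bd0 φ) (h' : Bd0 ψ) : Bd0 (fun x => φ x + ψ x) := by
  obtain ⟨hc, A, c, hA, hc0, hb⟩ := h
  obtain ⟨hc', A', c', hA', hc0', hb'⟩ := h'
  refine ⟨fun x hx => (hc x hx).add (hc' x hx), A + A', min c c', by positivity,
    lt_min hc0 hc0', fun x hx => ?_⟩
  have h1 : exp (-c * ‖x‖) ≤ exp (-(min c c') * ‖x‖) := by
    apply exp_le_exp.2
    have := min_le_left c c'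
    nlinarith [norm_nonneg x]
  have h2 : exp (-c' * ‖x‖) ≤ exp (-(min c c') * ‖x‖) := by
    apply exp_le_exp.2
    have := min_le_right c c'
    nlinarith [norm_nonneg x]
  calc |φ x + ψ x| ≤ |φ x| + |ψ x| := abs_add_le _ _
    _ ≤ A * exp (-c * ‖x‖) + A' * exp (-c' * ‖x‖) := add_le_add (hb x hx) (hb' x hx)
    _ ≤ A * exp (-(min c c') * ‖x‖) + A' * exp (-(min c c') * ‖x‖) := by gcongr
    _ = _ := by ring

theorem Bd1.add {φ ψ : R3 → ℝ} (h : Bd1 φ) (h' : Bd1 ψ) : Bd1 (fun x => φ x + ψ x) := by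
  obtain ⟨hc, A, c, hA, hc0, hb⟩ := h
  obtain ⟨hc', A', c', hA', hc0', hb'⟩ := h'
  refine ⟨fun x hx => (hc x hx).add (hc' x hx), A + A', min c c', by positivity,
    lt_min hc0 hc0', fun x hx => ?_⟩
  have h1 : exp (-c * ‖x‖) ≤ exp (-(min c c') * ‖x‖) := by
    apply exp_le_exp.2
    have := min_le_left c c'
    nlinarith [norm_nonneg x]
  have h2 : exp (-c' * ‖x‖) ≤ exp (-(min c c') * ‖x‖) := by
    apply exp_le_exp.2
    have := min_le_right c c'
    nlinarith [norm_nonneg x]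
  calc |φ x + ψ x| ≤ |φ x| + |ψ x| := abs_add_le _ _
    _ ≤ A * exp (-c * ‖x‖) / ‖x‖ + A' * exp (-c' * ‖x‖) / ‖x‖ := add_le_add (hb x hx) (hb' x hx)
    _ ≤ A * exp (-(min c c') * ‖x‖) / ‖x‖ + A' * exp (-(min c c') * ‖x‖) / ‖x‖ := by gcongr
    _ = _ := by ring

theorem Bd0.const_mul {φ : R3 → ℝ} (h : Bd0 φ) (a : ℝ) : Bd0 (fun x => a * φ x) := by
  obtain ⟨hc, A, c, hA, hc0, hb⟩ := h
  refine ⟨fun x hx => continuousAt_const.mul (hc x hx), |a| * A, c, by positivity, hc0,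
    fun x hx => ?_⟩
  rw [abs_mul, mul_assoc]
  exact mul_le_mul_of_nonneg_left (hb x hx) (abs_nonneg a)

theorem Bd1.const_mul {φ : R3 → ℝ} (h : Bd1 φ) (a : ℝ) : Bd1 (fun x => a * φ x) := by
  obtain ⟨hc, A, c, hA, hc0, hb⟩ := h
  refine ⟨fun x hx => continuousAt_const.mul (hc x hx), |a| * A, c, by positivity, hc0,
    fun x hx => ?_⟩
  rw [abs_mul, mul_assoc, mul_div_assoc]
  exact mul_le_mul_of_nonneg_left (hb x hx) (abs_nonneg a)

theorem poly_bound (p : Poly) : ∀ c : ℝ, 0 < c → ∃ A : ℝ, 0 ≤ A ∧ ∀ x : R3,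
    |ev p x| ≤ A * exp (c * ‖x‖) := by
  induction p using MvPolynomial.induction_on with
  | C a =>
    intro c hc
    refine ⟨|a|, abs_nonneg a, fun x => ?_⟩
    rw [ev_C]
    have : 1 ≤ exp (c * ‖x‖) := Real.one_le_exp (by positivity)
    nlinarith [abs_nonneg a]
  | add p q hp hq =>
    intro c hc
    obtain ⟨A, hA, h⟩ := hp c hc
    obtain ⟨B, hB, h'⟩ := hq c hc
    refine ⟨A + B, by positivity, fun x => ?_⟩
    rw [ev_add]
    calc _ ≤ |ev p x| + |ev q x| := abs_add_le _ _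
      _ ≤ _ := by rw [add_mul]; exact add_le_add (h x) (h' x)
  | mul_X p i hp =>
    intro c hc
    obtain ⟨A, hA, h⟩ := hp (c / 2) (by positivity)
    refine ⟨A * (2 / c), by positivity, fun x => ?_⟩
    rw [ev_mul, ev_X, abs_mul]
    have h1 : |x i| ≤ ‖x‖ := by
      have := EuclideanSpace.norm_eq x
      have h2 := PiLp.norm_apply_le x i
      rwa [Real.norm_eq_abs] at h2
    have h2 : ‖x‖ ≤ 2 / c * exp (c / 2 * ‖x‖) := by
      have := Real.add_one_le_exp (c / 2 * ‖x‖)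
      rw [div_mul_eq_mul_div, le_div_iff₀ hc]
      nlinarith
    calc |ev p x| * |x i| ≤ (A * exp (c / 2 * ‖x‖)) * (2 / c * exp (c / 2 * ‖x‖)) := by
          apply mul_le_mul (h x) (h1.trans h2) (abs_nonneg _) (by positivity)
      _ = A * (2 / c) * (exp (c / 2 * ‖x‖) * exp (c / 2 * ‖x‖)) := by ring
      _ = _ := by rw [← Real.exp_add]; ring_nf

theorem Bd0.ev_mul (p : Poly) {φ : R3 → ℝ} (h : Bd0 φ) : Bd0 (fun x => ev p x * φ x) := by
  obtain ⟨hc, A, c, hA, hc0, hb⟩ := h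
  obtain ⟨B, hB, hp⟩ := poly_bound p (c / 2) (by positivity)
  refine ⟨fun x hx => (ev_continuous p).continuousAt.mul (hc x hx), B * A, c / 2, by positivity,
    by positivity, fun x hx => ?_⟩
  rw [abs_mul]
  calc |ev p x| * |φ x| ≤ (B * exp (c / 2 * ‖x‖)) * (A * exp (-c * ‖x‖)) :=
        mul_le_mul (hp x) (hb x hx) (abs_nonneg _) (by positivity)
    _ = B * A * (exp (c / 2 * ‖x‖) * exp (-c * ‖x‖)) := by ring
    _ = _ := by rw [← Real.exp_add]; ring_nf

theorem Bd1.ev_mul (p : Poly) {φ : R3 → ℝ} (h : Bd1 φ) : Bd1 (fun x => ev p x * φ x) := by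
  obtain ⟨hc, A, c, hA, hc0, hb⟩ := h
  obtain ⟨B, hB, hp⟩ := poly_bound p (c / 2) (by positivity)
  refine ⟨fun x hx => (ev_continuous p).continuousAt.mul (hc x hx), B * A, c / 2, by positivity,
    by positivity, fun x hx => ?_⟩
  rw [abs_mul]
  calc |ev p x| * |φ x| ≤ (B * exp (c / 2 * ‖x‖)) * (A * exp (-c * ‖x‖) / ‖x‖) :=
        mul_le_mul (hp x) (hb x hx) (abs_nonneg _) (by positivity)
    _ = B * A * (exp (c / 2 * ‖x‖) * exp (-c * ‖x‖)) / ‖x‖ := by ring
    _ = _ := by rw [← Real.exp_add]; ring_nf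

theorem ae_ne_zero : ∀ᵐ x : R3, x ≠ 0 := by rw [ae_iff]; simp

theorem aesm_of_continuousAt {φ : R3 → ℝ} (h : ∀ x, x ≠ 0 → ContinuousAt φ x) :
    AEStronglyMeasurable φ volume := by
  have h1 : ContinuousOn φ {0}ᶜ := fun x hx => (h x hx).continuousWithinAt
  have h2 := h1.aestronglyMeasurable (μ := volume) (measurableSet_singleton (0 : R3)).compl
  rwa [Measure.restrict_eq_self_of_ae_mem] at h2
  filter_upwards [ae_ne_zero] with x hx
  exact hx

theorem Bd1.memLp {φ : R3 → ℝ} (h : Bd1 φ) : MemLp φ 2 := by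
  obtain ⟨hc, A, c, hA, hc0, hb⟩ := h
  have hm := aesm_of_continuousAt hc
  rw [memLp_two_iff_integrable_sq hm]
  have hint : Integrable (fun x : R3 => A ^ 2 * ((‖x‖ ^ 2)⁻¹ * exp (-(2 * c) * ‖x‖))) := by
    apply Integrable.const_mul
    have := (integrable_rad (f := fun y => (y ^ 2)⁻¹ * exp (-(2 * c) * y))).2
    apply this
    have h0 := integrableOn_pow_exp 0 (c := 2 * c) (by positivity)
    refine h0.congr_fun ?_ measurableSet_Ioi
    intro y hy
    have : y ≠ 0 := ne_of_gt hy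
    simp only
    field_simp
  refine hint.mono' (hm.pow 2) ?_
  filter_upwards [ae_ne_zero] with x hx
  have hx0 : 0 < ‖x‖ := norm_pos_iff.2 hx
  rw [norm_pow, Real.norm_eq_abs]
  calc |φ x| ^ 2 ≤ (A * exp (-c * ‖x‖) / ‖x‖) ^ 2 := by
        gcongr
        exact hb x hx
    _ = A ^ 2 * ((‖x‖ ^ 2)⁻¹ * (exp (-c * ‖x‖) * exp (-c * ‖x‖))) := by
        field_simp
    _ = _ := by rw [← Real.exp_add]; ring_nf

theorem Bd0.memLp {φ : R3 → ℝ} (h : Bd0 φ) : MemLp φ 2 := h.bd1.memLp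

end

end Vale.Agent.P363.H849
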