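import Vale.Agent.P363.R.Sob.Basic
import Mathlib.MeasureTheory.Constructions.HaarToSphere
import Mathlib.MeasureTheory.Measure.Lebesgue.VolumeOfBalls
import Mathlib.Analysis.SpecialFunctions.Gamma.Basic
import Mathlib.Analysis.SpecialFunctions.Gaussian.GaussianIntegral

/-! Radial integrals on `ℝ³`. -/

namespace Vale.Agent.P363.H849

open MeasureTheory Set Real
open scoped ENNReal ContDiff

noncomputable section

abbrev R3 : Type := EuclideanSpace ℝ (Fin 3)

theorem integral_rad (f : ℝ → ℝ) :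
    ∫ x : R3, f ‖x‖ = 4 * π * ∫ y in Ioi (0 : ℝ), y ^ 2 * f y := by
  have h := integral_fun_norm_addHaar (volume : Measure R3) f
  rw [h]
  have hd : Module.finrank ℝ R3 = 3 := by simp
  rw [hd]
  have hv : (volume : Measure R3).real (Metric.ball 0 1) = π * 4 / 3 := by
    rw [Measure.real, EuclideanSpace.volume_ball_fin_three]
    have : (0 : ℝ) ≤ π * 4 / 3 := by positivity
    simp [ENNReal.toReal_ofReal this]
  rw [hv]
  simp only [nsmul_eq_mul, smul_eq_mul]
  push_cast
  ring

theorem integrable_rad {f : ℝ → ℝ} :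
    Integrable (fun x : R3 => f ‖x‖) ↔ IntegrableOn (fun y => y ^ 2 * f y) (Ioi 0) := by
  have h := integrable_fun_norm_addHaar (volume : Measure R3) (f := f)
  have hd : Module.finrank ℝ R3 = 3 := by simp
  rw [hd] at h
  simpa using h

theorem integrableOn_pow_exp (n : ℕ) {c : ℝ} (hc : 0 < c) :
    IntegrableOn (fun y : ℝ => y ^ n * exp (-c * y)) (Ioi 0) := by
  have h := integrableOn_rpow_mul_exp_neg_mul_rpow (s := (n : ℝ)) (p := 1) (b := c)
    (by have : (0 : ℝ) ≤ n := Nat.cast_nonneg n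
        linarith) one_pos hc
  refine h.congr_fun ?_ measurableSet_Ioi
  intro y hy
  simp [Real.rpow_natCast]

theorem integral_pow_exp (n : ℕ) {c : ℝ} (hc : 0 < c) :
    ∫ y in Ioi (0 : ℝ), y ^ n * exp (-c * y) = n.factorial / c ^ (n + 1) := by
  have h := integral_rpow_mul_exp_neg_mul_Ioi (a := (n : ℝ) + 1) (r := c) (by positivity) hc
  have h2 : ∫ y in Ioi (0 : ℝ), y ^ n * exp (-c * y)
      = ∫ t : ℝ in Ioi 0, t ^ ((n : ℝ) + 1 - 1) * exp (-(c * t)) := by
    apply setIntegral_congr_fun measurableSet_Ioi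
    intro y hy
    simp [Real.rpow_natCast]
  rw [h2, h, Real.Gamma_nat_eq_factorial]
  rw [show ((n : ℝ) + 1) = ((n + 1 : ℕ) : ℝ) by push_cast; ring, Real.rpow_natCast]
  rw [one_div, inv_pow]
  field_simp

end

end Vale.Agent.P363.H849
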