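import Vale.Agent.P363.H849.Rad

/-! Integration by parts against functions which are smooth away from the origin. -/

namespace Vale.Agent.P363.H849

open MeasureTheory Set Real Filter Topology
open scoped ENNReal ContDiff
open Vale.Agent.P363.R.Sob (IsWD Test)

noncomputable section

/-- The fixed bump function. -/
def chiB : ContDiffBump (0 : R3) := ⟨1, 2, one_pos, one_lt_two⟩

/-- The fixed bump function, as a function. -/
def chi (x : R3) : ℝ := chiB x

theorem chi_contDiff : ContDiff ℝ ∞ chi := chiB.contDiff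

theorem chi_hasCompactSupport : HasCompactSupport chi := chiB.hasCompactSupport

theorem chi_one {x : R3} (hx : ‖x‖ ≤ 1) : chi x = 1 :=
  chiB.one_of_mem_closedBall (by simpa [chiB] using hx)

theorem chi_zero {x : R3} (hx : 2 ≤ ‖x‖) : chi x = 0 :=
  chiB.zero_of_le_dist (by simpa [chiB] using hx)

theorem chi_le_one (x : R3) : chi x ≤ 1 := chiB.le_one

theorem chi_nonneg (x : R3) : 0 ≤ chi x := chiB.nonneg

theorem fderiv_chi_bound : ∃ C : ℝ, 0 ≤ C ∧ ∀ y : R3, ‖fderiv ℝ chi y‖ * ‖y‖ ≤ C := by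
  have hc : Continuous (fun y : R3 => ‖fderiv ℝ chi y‖ * ‖y‖) :=
    ((chi_contDiff.continuous_fderiv (by simp)).norm).mul continuous_norm
  have hs : HasCompactSupport (fun y : R3 => ‖fderiv ℝ chi y‖ * ‖y‖) := by
    have h1 : HasCompactSupport (fderiv ℝ chi) := chi_hasCompactSupport.fderiv (𝕜 := ℝ)
    exact (h1.norm).mul_right
  obtain ⟨C, hC⟩ := hs.exists_bound_of_continuous hc
  refine ⟨C, (norm_nonneg _).trans (hC 0), fun y => (le_abs_self _).trans (hC y)⟩

/-- Cutoffs vanishing near the origin and near infinity. -/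
def eta (n : ℕ) (x : R3) : ℝ :=
  (1 - chi (((n : ℝ) + 1) • x)) * chi ((((n : ℝ) + 1)⁻¹) • x)

theorem eta_contDiff (n : ℕ) : ContDiff ℝ ∞ (eta n) := by
  unfold eta
  exact (contDiff_const.sub (chi_contDiff.comp (contDiff_const_smul _))).mul
    (chi_contDiff.comp (contDiff_const_smul _))

theorem eta_hasCompactSupport (n : ℕ) : HasCompactSupport (eta n) := by
  unfold eta
  apply HasCompactSupport.mul_left
  have h := (chi_hasCompactSupport).comp_homeomorph
    (Homeomorph.smulOfNeZero (((n : ℝ) + 1)⁻¹) (by positivity) : R3 ≃ₜ R3)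
  exact h

theorem eta_near_zero (n : ℕ) : ∀ᶠ x in 𝓝 (0 : R3), eta n x = 0 := by
  have : Metric.ball (0 : R3) ((n : ℝ) + 1)⁻¹ ∈ 𝓝 (0 : R3) := Metric.ball_mem_nhds _ (by positivity)
  filter_upwards [this] with x hx
  have hx' : ‖x‖ < ((n : ℝ) + 1)⁻¹ := by simpa using hx
  unfold eta
  rw [chi_one, sub_self, zero_mul]
  rw [norm_smul, Real.norm_of_nonneg (by positivity)]
  have : ((n : ℝ) + 1) * ‖x‖ ≤ ((n : ℝ) + 1) * ((n : ℝ) + 1)⁻¹ := by
    apply mul_le_mul_of_nonneg_left hx'.le (by positivity)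
  rwa [mul_inv_cancel₀ (by positivity)] at this

theorem eta_abs_le (n : ℕ) (x : R3) : |eta n x| ≤ 1 := by
  unfold eta
  rw [abs_mul]
  have h1 : |1 - chi (((n : ℝ) + 1) • x)| ≤ 1 := by
    rw [abs_le]
    constructor
    · have := chi_le_one (((n : ℝ) + 1) • x)
      linarith
    · have := chi_nonneg (((n : ℝ) + 1) • x)
      linarith
  have h2 : |chi ((((n : ℝ) + 1)⁻¹) • x)| ≤ 1 := by
    rw [abs_of_nonneg (chi_nonneg _)]
    exact chi_le_one _
  calc _ ≤ 1 * 1 := mul_le_mul h1 h2 (abs_nonneg _) zero_le_one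
    _ = 1 := one_mul 1

theorem eta_eventually {x : R3} (hx : x ≠ 0) : ∀ᶠ n : ℕ in atTop, ∀ᶠ y in 𝓝 x, eta n y = 1 := by
  have hx0 : 0 < ‖x‖ := norm_pos_iff.2 hx
  obtain ⟨N, hN⟩ := exists_nat_gt (max (4 / ‖x‖) (2 * ‖x‖))
  filter_upwards [eventually_ge_atTop N] with n hn
  have hn' : (N : ℝ) ≤ n := by exact_mod_cast hn
  have h1 : 4 / ‖x‖ < n := (le_max_left _ _).trans_lt (hN.trans_le hn')
  have h2 : 2 * ‖x‖ < n := (le_max_right _ _).trans_lt (hN.trans_le hn')
  have hev1 : ∀ᶠ y in 𝓝 x, ‖x‖ / 2 < ‖y‖ :=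
    continuous_norm.continuousAt.eventually (lt_mem_nhds (by linarith))
  have hev2 : ∀ᶠ y in 𝓝 x, ‖y‖ < 2 * ‖x‖ :=
    continuous_norm.continuousAt.eventually (gt_mem_nhds (by linarith))
  filter_upwards [hev1, hev2] with y hy1 hy2
  unfold eta
  rw [chi_zero, chi_one]
  · norm_num
  · rw [norm_smul, Real.norm_of_nonneg (by positivity), inv_mul_le_iff₀ (by positivity)]
    linarith
  · rw [norm_smul, Real.norm_of_nonneg (by positivity)]
    rw [div_lt_iff₀ hx0] at h1
    nlinarith

theorem eta_tendsto {x : R3} (hx : x ≠ 0) : Tendsto (fun n => eta n x) atTop (𝓝 1) := by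
  apply tendsto_const_nhds.congr'
  filter_upwards [eta_eventually hx] with n hn
  exact hn.self_of_nhds.symm

theorem eta_fderiv_tendsto {x : R3} (hx : x ≠ 0) (v : R3) :
    Tendsto (fun n => fderiv ℝ (eta n) x v) atTop (𝓝 0) := by
  apply tendsto_const_nhds.congr'
  filter_upwards [eta_eventually hx] with n hn
  have : fderiv ℝ (eta n) x = fderiv ℝ (fun _ => (1 : ℝ)) x := Filter.EventuallyEq.fderiv_eq hn
  rw [this]
  simp

theorem eta_fderiv_bound : ∃ C : ℝ, 0 ≤ C ∧ ∀ (n : ℕ) (x v : R3), x ≠ 0 →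
    |fderiv ℝ (eta n) x v| ≤ C * ‖v‖ / ‖x‖ := by
  obtain ⟨C, hC0, hC⟩ := fderiv_chi_bound
  refine ⟨2 * C, by positivity, fun n x v hx => ?_⟩
  have hx0 : 0 < ‖x‖ := norm_pos_iff.2 hx
  set t : ℝ := (n : ℝ) + 1 with ht
  have ht0 : 0 < t := by positivity
  have key : ∀ s : ℝ, 0 < s → |fderiv ℝ (fun y : R3 => chi (s • y)) x v| ≤ C * ‖v‖ / ‖x‖ := by
    intro s hs
    have h1 : HasFDerivAt (fun y : R3 => chi (s • y))
        ((fderiv ℝ chi (s • x)).comp (s • ContinuousLinearMap.id ℝ R3)) x := by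
      have ha : HasFDerivAt chi (fderiv ℝ chi (s • x)) (s • x) :=
        (chi_contDiff.differentiable (by simp) _).hasFDerivAt
      have hb : HasFDerivAt (fun y : R3 => s • y) (s • ContinuousLinearMap.id ℝ R3) x :=
        (hasFDerivAt_id x).const_smul s
      exact HasFDerivAt.comp x ha hb
    rw [h1.fderiv]
    have h2 : ((fderiv ℝ chi (s • x)).comp (s • ContinuousLinearMap.id ℝ R3)) v
        = s * fderiv ℝ chi (s • x) v := by simp
    rw [h2, abs_mul, abs_of_pos hs]
    have h3 : |fderiv ℝ chi (s • x) v| ≤ ‖fderiv ℝ chi (s • x)‖ * ‖v‖ := by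
      have := ContinuousLinearMap.le_opNorm (fderiv ℝ chi (s • x)) v
      rwa [Real.norm_eq_abs] at this
    have h4 := hC (s • x)
    rw [norm_smul, Real.norm_of_nonneg hs.le] at h4
    rw [le_div_iff₀ hx0]
    calc s * |fderiv ℝ chi (s • x) v| * ‖x‖
        ≤ s * (‖fderiv ℝ chi (s • x)‖ * ‖v‖) * ‖x‖ := by gcongr
      _ = (‖fderiv ℝ chi (s • x)‖ * (s * ‖x‖)) * ‖v‖ := by ring
      _ ≤ C * ‖v‖ := by gcongr
  have hd : ∀ s : ℝ, DifferentiableAt ℝ (fun y : R3 => chi (s • y)) x := fun s =>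
    ((chi_contDiff.comp (contDiff_const_smul s)).differentiable (by simp)) x
  have h5 : fderiv ℝ (eta n) x v =
      (1 - chi (t • x)) * fderiv ℝ (fun y : R3 => chi (t⁻¹ • y)) x v
        - chi (t⁻¹ • x) * fderiv ℝ (fun y : R3 => chi (t • y)) x v := by
    have h6 : HasFDerivAt (eta n)
        ((1 - chi (t • x)) • fderiv ℝ (fun y : R3 => chi (t⁻¹ • y)) x
          + chi (t⁻¹ • x) • (0 - fderiv ℝ (fun y : R3 => chi (t • y)) x)) x := by
      unfold eta
      exact (((hasFDerivAt_const (1 : ℝ) x).sub (hd t).hasFDerivAt).mul (hd t⁻¹).hasFDerivAt)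
    rw [h6.fderiv]
    simp
    ring
  rw [h5]
  have a1 : |1 - chi (t • x)| ≤ 1 := by
    rw [abs_le]
    constructor
    · have := chi_le_one (t • x)
      linarith
    · have := chi_nonneg (t • x)
      linarith
  have a2 : |chi (t⁻¹ • x)| ≤ 1 := by
    rw [abs_of_nonneg (chi_nonneg _)]
    exact chi_le_one _
  calc _ ≤ |(1 - chi (t • x)) * fderiv ℝ (fun y : R3 => chi (t⁻¹ • y)) x v|
        + |chi (t⁻¹ • x) * fderiv ℝ (fun y : R3 => chi (t • y)) x v| := abs_sub _ _
    _ ≤ 1 * (C * ‖v‖ / ‖x‖) + 1 * (C * ‖v‖ / ‖x‖) := by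
        rw [abs_mul, abs_mul]
        apply add_le_add
        · exact mul_le_mul a1 (key _ (by positivity)) (abs_nonneg _) zero_le_one
        · exact mul_le_mul a2 (key _ (by positivity)) (abs_nonneg _) zero_le_one
    _ = _ := by ring

/-- Integration by parts against a function smooth away from the origin. -/
theorem reg_ibp {v : R3} {f g : R3 → ℝ} (hf : MemLp f 2) (hg : MemLp g 2)
    (hW : IsWD volume v f g) {u u' : R3 → ℝ} (hu : ∀ x, x ≠ 0 → ContDiffAt ℝ ∞ u x)
    (hu' : ∀ x, x ≠ 0 → fderiv ℝ u x v = u' x)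
    (h0 : MemLp (fun x => u x / ‖x‖) 2) (h1 : MemLp u 2) (h2 : MemLp u' 2) :
    ∫ x, u' x * f x = - ∫ x, u x * g x := by
  obtain ⟨C, hC0, hC⟩ := eta_fderiv_bound
  have hne : ∀ᵐ x : R3, x ≠ 0 := by
    rw [ae_iff]; simp
  have htest : ∀ n, Test (fun x => eta n x * u x) := by
    intro n
    refine ⟨?_, (eta_hasCompactSupport n).mul_right⟩
    rw [contDiff_iff_contDiffAt]
    intro x
    by_cases hx : x = 0
    · subst hx
      apply (contDiffAt_const (c := (0 : ℝ))).congr_of_eventuallyEq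
      filter_upwards [eta_near_zero n] with y hy
      rw [hy, zero_mul]
    · exact (eta_contDiff n).contDiffAt.mul (hu x hx)
  have hfd : ∀ n x, x ≠ 0 → fderiv ℝ (fun x => eta n x * u x) x v
      = fderiv ℝ (eta n) x v * u x + eta n x * u' x := by
    intro n x hx
    have hd1 : DifferentiableAt ℝ (eta n) x := (eta_contDiff n).differentiable (by simp) x
    have hd2 : DifferentiableAt ℝ u x := (hu x hx).differentiableAt (by simp)
    have := (hd1.hasFDerivAt.mul hd2.hasFDerivAt).fderiv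
    rw [← hu' x hx]
    rw [show (fun x => eta n x * u x) = (eta n * u) from rfl, this]
    simp
    ring
  have hI : ∀ n, ∫ x, (fderiv ℝ (eta n) x v * u x + eta n x * u' x) * f x
      = - ∫ x, (eta n x * u x) * g x := by
    intro n
    have := hW _ (htest n)
    simp only [smul_eq_mul] at this
    rw [← this]
    apply integral_congr_ae
    filter_upwards [hne] with x hx
    rw [hfd n x hx]
  have i1 : Integrable (fun x => u' x * f x) := h2.integrable_mul hf
  have i2 : Integrable (fun x => u x * g x) := h1.integrable_mul hg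
  have i3 : Integrable (fun x => (u x / ‖x‖) * f x) := h0.integrable_mul hf
  have L1 : Tendsto (fun n => ∫ x, (fderiv ℝ (eta n) x v * u x + eta n x * u' x) * f x) atTop
      (𝓝 (∫ x, u' x * f x)) := by
    apply tendsto_integral_of_dominated_convergence
      (fun x => C * ‖v‖ * ‖(u x / ‖x‖) * f x‖ + ‖u' x * f x‖)
    · intro n
      have m1 : AEStronglyMeasurable (fun x : R3 => fderiv ℝ (eta n) x v) volume := by
        have : Continuous (fun x : R3 => fderiv ℝ (eta n) x v) :=
          ((eta_contDiff n).continuous_fderiv (by simp)).clm_apply continuous_const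
        exact this.aestronglyMeasurable
      exact ((m1.mul h1.1).add ((eta_contDiff n).continuous.aestronglyMeasurable.mul h2.1)).mul hf.1
    · exact (i3.norm.const_mul _).add i1.norm
    · intro n
      filter_upwards [hne] with x hx
      have hx0 : 0 < ‖x‖ := norm_pos_iff.2 hx
      rw [add_mul]
      refine (norm_add_le _ _).trans ?_
      apply add_le_add
      · rw [norm_mul, norm_mul, norm_mul, norm_div, norm_norm]
        have := hC n x v hx
        rw [Real.norm_eq_abs (fderiv ℝ (eta n) x v)]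
        calc |fderiv ℝ (eta n) x v| * ‖u x‖ * ‖f x‖
            ≤ (C * ‖v‖ / ‖x‖) * ‖u x‖ * ‖f x‖ := by gcongr
          _ = _ := by ring
      · rw [norm_mul, norm_mul, norm_mul]
        have := eta_abs_le n x
        rw [Real.norm_eq_abs (eta n x)]
        calc |eta n x| * ‖u' x‖ * ‖f x‖ ≤ 1 * ‖u' x‖ * ‖f x‖ := by gcongr
          _ = _ := by ring
    · filter_upwards [hne] with x hx
      have t1 := (eta_fderiv_tendsto hx v).mul_const (u x)
      have t2 := (eta_tendsto hx).mul_const (u' x)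
      have := (t1.add t2).mul_const (f x)
      simpa using this
  have L2 : Tendsto (fun n => - ∫ x, (eta n x * u x) * g x) atTop (𝓝 (- ∫ x, u x * g x)) := by
    apply Tendsto.neg
    apply tendsto_integral_of_dominated_convergence (fun x => ‖u x * g x‖)
    · intro n
      exact ((eta_contDiff n).continuous.aestronglyMeasurable.mul h1.1).mul hg.1
    · exact i2.norm
    · intro n
      filter_upwards with x
      rw [norm_mul, norm_mul, norm_mul]
      have := eta_abs_le n x
      rw [Real.norm_eq_abs (eta n x)]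
      calc |eta n x| * ‖u x‖ * ‖g x‖ ≤ 1 * ‖u x‖ * ‖g x‖ := by gcongr
        _ = _ := by ring
    · filter_upwards [hne] with x hx
      have := ((eta_tendsto hx).mul_const (u x)).mul_const (g x)
      simpa using this
  refine tendsto_nhds_unique L1 ?_
  simp_rw [hI]
  exact L2

end

end Vale.Agent.P363.H849
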