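import Vale.Agent.P363.H849.Pol
import Vale.Agent.P363.H849.Lin

/-! The form domain on `ℝ³` as a real vector space, and the flag inside it. -/

namespace Vale.Agent.P363.H849

open MeasureTheory Set Real Filter Topology
open scoped ENNReal ContDiff
open Vale.Agent.P363.R.Sob (IsWD Test)

noncomputable section

theorem test_memLp {φ : R3 → ℝ} (h : Test φ) : MemLp φ 2 :=
  h.continuous.memLp_of_hasCompactSupport h.2

theorem test_isWD {φ : R3 → ℝ} (h : Test φ) (v : R3) :
    IsWD volume v φ (fun x => fderiv ℝ φ x v) := by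
  intro ψ hψ
  simp only [smul_eq_mul]
  have e1 : Integrable (fun x => fderiv ℝ ψ x v * φ x) :=
    (test_memLp (hψ.fderiv v)).integrable_mul (test_memLp h)
  have e2 : Integrable (fun x => ψ x * fderiv ℝ φ x v) :=
    (test_memLp hψ).integrable_mul (test_memLp (h.fderiv v))
  have e3 : Integrable (fun x => ψ x * φ x) := (test_memLp hψ).integrable_mul (test_memLp h)
  have := integral_mul_fderiv_eq_neg_fderiv_mul_of_integrable e1 e2 e3
    (fun x _ => hψ.differentiable x) (fun x _ => h.differentiable x)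
  rw [this, neg_neg]

/-- Functions in `H¹(ℝ³)` with their weak gradients. -/
def H1 : Submodule ℝ ((R3 → ℝ) × (Fin 3 → R3 → ℝ)) where
  carrier := {u | MemLp u.1 2 ∧ (∀ k, MemLp (u.2 k) 2) ∧ ∀ k, IsWD volume (e3 k) u.1 (u.2 k)}
  zero_mem' := by
    refine ⟨?_, fun k => ?_, fun k => ?_⟩
    · exact MemLp.zero
    · exact MemLp.zero
    · exact Vale.Agent.P363.R.Sob.isWD_zero
  add_mem' := by
    rintro u w ⟨h1, h2, h3⟩ ⟨h1', h2', h3'⟩
    refine ⟨h1.add h1', fun k => (h2 k).add (h2' k), fun k => ?_⟩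
    exact (h3 k).add (h3' k) (h1.locallyIntegrable (by norm_num))
      ((h2 k).locallyIntegrable (by norm_num)) (h1'.locallyIntegrable (by norm_num))
      ((h2' k).locallyIntegrable (by norm_num))
  smul_mem' := by
    rintro c u ⟨h1, h2, h3⟩
    exact ⟨h1.const_smul c, fun k => (h2 k).const_smul c, fun k => (h3 k).const_smul c⟩

theorem m1 (u : H1) : MemLp u.1.1 2 := u.2.1
theorem m2 (u : H1) (k : Fin 3) : MemLp (u.1.2 k) 2 := u.2.2.1 k
theorem mW (u : H1) (k : Fin 3) : IsWD volume (e3 k) u.1.1 (u.1.2 k) := u.2.2.2 k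

/-- the Coulomb-Hardy integrability property -/
def HardyInt : Prop := ∀ u : H1, Integrable (fun x => u.1.1 x ^ 2 / ‖x‖)

/-- `∫ f g` -/
def ip : H1 →ₗ[ℝ] H1 →ₗ[ℝ] ℝ :=
  LinearMap.mk₂ ℝ (fun u w : H1 => ∫ x, u.1.1 x * w.1.1 x)
    (by
      intro u u' w
      simp only [Submodule.coe_add, Prod.fst_add, Pi.add_apply, add_mul]
      exact integral_add ((m1 u).integrable_mul (m1 w)) ((m1 u').integrable_mul (m1 w)))
    (by
      intro c u w
      simp only [Submodule.coe_smul, Prod.smul_fst, Pi.smul_apply, smul_eq_mul, mul_assoc]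
      exact integral_const_mul _ _)
    (by
      intro u w w'
      simp only [Submodule.coe_add, Prod.fst_add, Pi.add_apply, mul_add]
      exact integral_add ((m1 u).integrable_mul (m1 w)) ((m1 u).integrable_mul (m1 w')))
    (by
      intro c u w
      simp only [Submodule.coe_smul, Prod.smul_fst, Pi.smul_apply, smul_eq_mul]
      rw [← integral_const_mul]
      congr 1; funext x; ring)

theorem ip_apply (u w : H1) : ip u w = ∫ x, u.1.1 x * w.1.1 x := rfl

/-- `∫ ∇f · ∇g` -/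
def dir : H1 →ₗ[ℝ] H1 →ₗ[ℝ] ℝ :=
  LinearMap.mk₂ ℝ (fun u w : H1 => ∑ k, ∫ x, u.1.2 k x * w.1.2 k x)
    (by
      intro u u' w
      simp only [Submodule.coe_add, Prod.snd_add, Pi.add_apply, add_mul]
      rw [← Finset.sum_add_distrib]
      exact Finset.sum_congr rfl fun k _ => integral_add ((m2 u k).integrable_mul (m2 w k))
        ((m2 u' k).integrable_mul (m2 w k)))
    (by
      intro c u w
      simp only [Submodule.coe_smul, Prod.smul_snd, Pi.smul_apply, smul_eq_mul, mul_assoc]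
      rw [Finset.mul_sum]
      exact Finset.sum_congr rfl fun k _ => integral_const_mul _ _)
    (by
      intro u w w'
      simp only [Submodule.coe_add, Prod.snd_add, Pi.add_apply, mul_add]
      rw [← Finset.sum_add_distrib]
      exact Finset.sum_congr rfl fun k _ => integral_add ((m2 u k).integrable_mul (m2 w k))
        ((m2 u k).integrable_mul (m2 w' k)))
    (by
      intro c u w
      simp only [Submodule.coe_smul, Prod.smul_snd, Pi.smul_apply, smul_eq_mul]
      rw [Finset.mul_sum]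
      refine Finset.sum_congr rfl fun k _ => ?_
      rw [← integral_const_mul]
      congr 1; funext x; ring)

theorem dir_apply (u w : H1) : dir u w = ∑ k, ∫ x, u.1.2 k x * w.1.2 k x := rfl

theorem bc_integrable (HP : HardyInt) (u w : H1) :
    Integrable (fun x => u.1.1 x * w.1.1 x / ‖x‖) := by
  have h1 := (HP u).add (HP w)
  refine h1.mono' ?_ ?_
  · simp only [div_eq_mul_inv]
    exact ((m1 u).1.mul (m1 w).1).mul (measurable_norm.inv.aestronglyMeasurable)
  · filter_upwards with x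
    simp only [Pi.add_apply]
    rw [← add_div, norm_div, norm_norm, Real.norm_eq_abs]
    apply div_le_div_of_nonneg_right _ (norm_nonneg x)
    rw [abs_le]
    constructor <;> nlinarith [sq_nonneg (u.1.1 x + w.1.1 x), sq_nonneg (u.1.1 x - w.1.1 x)]

/-- `∫ f g / r` -/
def bc (HP : HardyInt) : H1 →ₗ[ℝ] H1 →ₗ[ℝ] ℝ :=
  LinearMap.mk₂ ℝ (fun u w : H1 => ∫ x, u.1.1 x * w.1.1 x / ‖x‖)
    (by
      intro u u' w
      simp only [Submodule.coe_add, Prod.fst_add, Pi.add_apply, add_mul, add_div]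
      exact integral_add (bc_integrable HP u w) (bc_integrable HP u' w))
    (by
      intro c u w
      simp only [Submodule.coe_smul, Prod.smul_fst, Pi.smul_apply, smul_eq_mul]
      rw [← integral_const_mul]
      congr 1; funext x; ring)
    (by
      intro u w w'
      simp only [Submodule.coe_add, Prod.fst_add, Pi.add_apply, mul_add, add_div]
      exact integral_add (bc_integrable HP u w) (bc_integrable HP u w'))
    (by
      intro c u w
      simp only [Submodule.coe_smul, Prod.smul_fst, Pi.smul_apply, smul_eq_mul]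
      rw [← integral_const_mul]
      congr 1; funext x; ring)

theorem bc_apply (HP : HardyInt) (u w : H1) : bc HP u w = ∫ x, u.1.1 x * w.1.1 x / ‖x‖ := rfl

theorem ip_symm (u w : H1) : ip u w = ip w u := by
  simp only [ip_apply, mul_comm]

theorem dir_symm (u w : H1) : dir u w = dir w u := by
  simp only [dir_apply, mul_comm]

theorem bc_symm (HP : HardyInt) (u w : H1) : bc HP u w = bc HP w u := by
  simp only [bc_apply, mul_comm]

theorem ip_nonneg (u : H1) : 0 ≤ ip u u := integral_nonneg fun _ => mul_self_nonneg _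

theorem dir_nonneg (u : H1) : 0 ≤ dir u u := by
  rw [dir_apply]
  exact Finset.sum_nonneg fun k _ => integral_nonneg fun _ => mul_self_nonneg _

theorem bc_nonneg (HP : HardyInt) (u : H1) : 0 ≤ bc HP u u :=
  integral_nonneg fun _ => div_nonneg (mul_self_nonneg _) (norm_nonneg _)

/-! ### the elements `(p + r q) e^{-κ r}` -/

/-- value -/
def wv (κ : ℝ) (u : Poly × Poly) (x : R3) : ℝ := G u.1 (hA κ) x + G u.2 (hB κ) x

/-- gradient (put to zero at the origin) -/
def wg (κ : ℝ) (u : Poly × Poly) (k : Fin 3) (x : R3) : ℝ :=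
  if x = 0 then 0 else
    (G (MvPolynomial.pderiv k u.1) (hA κ) x + G (MvPolynomial.X k * u.1) (hA1 κ) x)
    + (G (MvPolynomial.pderiv k u.2) (hB κ) x + G (MvPolynomial.X k * u.2) (hB1 κ) x)

theorem wv_continuous (κ : ℝ) (u : Poly × Poly) : Continuous (wv κ u) := by
  unfold wv G hA hB
  have h1 := ev_continuous u.1
  have h2 := ev_continuous u.2
  fun_prop

theorem wv_bd0 {κ : ℝ} (hκ : 0 < κ) (u : Poly × Poly) : Bd0 (wv κ u) :=
  ((isProfA hκ).bd0 _).add ((isProfB hκ).bd0 _)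

theorem wg_bd0 {κ : ℝ} (hκ : 0 < κ) (u : Poly × Poly) (k : Fin 3) : Bd0 (wg κ u k) := by
  have h := (((isProfA hκ).bd0 (MvPolynomial.pderiv k u.1)).add
    ((isProfA hκ).bd1_X u.1 k)).add
    (((isProfB hκ).bd0 (MvPolynomial.pderiv k u.2)).add ((isProfB hκ).bd1_X u.2 k))
  obtain ⟨hc, A, c, hA', hc0, hb⟩ := h
  refine ⟨fun x hx => ?_, A, c, hA', hc0, fun x hx => ?_⟩
  · refine (hc x hx).congr ?_
    filter_upwards [isOpen_ne.mem_nhds hx] with y hy
    rw [wg, if_neg hy]
  · rw [wg, if_neg hx]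
    exact hb x hx

theorem wv_fderiv {κ : ℝ} (hκ : 0 < κ) (u : Poly × Poly) (k : Fin 3) {x : R3} (hx : x ≠ 0) :
    fderiv ℝ (wv κ u) x (e3 k) = wg κ u k x := by
  have hx0 := norm_pos_iff.2 hx
  have d1 : DifferentiableAt ℝ (G u.1 (hA κ)) x :=
    (G_contDiffAt _ hx ((isProfA hκ).sm _ hx0)).differentiableAt (by simp)
  have d2 : DifferentiableAt ℝ (G u.2 (hB κ)) x :=
    (G_contDiffAt _ hx ((isProfB hκ).sm _ hx0)).differentiableAt (by simp)
  rw [wg, if_neg hx]
  rw [show wv κ u = fun x => G u.1 (hA κ) x + G u.2 (hB κ) x from rfl]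
  rw [fderiv_fun_add d1 d2, _root_.add_apply, G_fderiv _ hx ((isProfA hκ).d _ hx0),
    G_fderiv _ hx ((isProfB hκ).d _ hx0)]

theorem wv_contDiffAt {κ : ℝ} (hκ : 0 < κ) (u : Poly × Poly) {x : R3} (hx : x ≠ 0) :
    ContDiffAt ℝ ∞ (wv κ u) x := by
  have hx0 := norm_pos_iff.2 hx
  exact (G_contDiffAt _ hx ((isProfA hκ).sm _ hx0)).add (G_contDiffAt _ hx ((isProfB hκ).sm _ hx0))

theorem w_isWD {κ : ℝ} (hκ : 0 < κ) (u : Poly × Poly) (k : Fin 3) :
    IsWD volume (e3 k) (wv κ u) (wg κ u k) := by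
  intro φ hφ
  simp only [smul_eq_mul]
  have h := reg_ibp (test_memLp hφ) (test_memLp (hφ.fderiv (e3 k))) (test_isWD hφ (e3 k))
    (fun x hx => wv_contDiffAt hκ u hx) (fun x hx => wv_fderiv hκ u k hx)
    (wv_bd0 hκ u).div_norm.memLp (wv_bd0 hκ u).memLp (wg_bd0 hκ u k).memLp
  have e1 : ∫ x, φ x * wg κ u k x = ∫ x, wg κ u k x * φ x := by
    congr 1; funext x; ring
  have e2 : ∫ x, fderiv ℝ φ x (e3 k) * wv κ u x = ∫ x, wv κ u x * fderiv ℝ φ x (e3 k) := by
    congr 1; funext x; ring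
  rw [e1, e2, h, neg_neg]

theorem G_add (p q : Poly) (h : ℝ → ℝ) (x : R3) : G (p + q) h x = G p h x + G q h x := by
  simp [G, ev_add, add_mul]

theorem G_smul (c : ℝ) (p : Poly) (h : ℝ → ℝ) (x : R3) : G (c • p) h x = c * G p h x := by
  simp [G, ev_smul, mul_assoc]

/-- The linear map `(p, q) ↦ (p + r q) e^{-κ r}` into `H¹`. -/
def Phi {κ : ℝ} (hκ : 0 < κ) : Poly × Poly →ₗ[ℝ] H1 where
  toFun u := ⟨(wv κ u, wg κ u), (wv_bd0 hκ u).memLp, fun k => (wg_bd0 hκ u k).memLp,
    fun k => w_isWD hκ u k⟩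
  map_add' u w := by
    apply Subtype.ext
    apply Prod.ext
    · funext x
      simp only [Submodule.coe_add, Prod.fst_add, Pi.add_apply, wv, Prod.fst_add, Prod.snd_add, G_add]
      ring
    · funext k x
      simp only [Submodule.coe_add, Prod.snd_add, Pi.add_apply, wg, Prod.fst_add, map_add, mul_add,
        G_add]
      split_ifs <;> ring
  map_smul' c u := by
    apply Subtype.ext
    apply Prod.ext
    · funext x
      simp only [Submodule.coe_smul, Prod.smul_fst, Pi.smul_apply, wv, Prod.smul_snd, G_smul,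
        RingHom.id_apply, smul_eq_mul]
      ring
    · funext k x
      simp only [Submodule.coe_smul, Prod.smul_snd, Pi.smul_apply, wg, Prod.smul_fst,
        Derivation.map_smul, mul_smul_comm, G_smul, RingHom.id_apply, smul_eq_mul]
      split_ifs <;> ring

theorem Phi_fst {κ : ℝ} (hκ : 0 < κ) (u : Poly × Poly) (x : R3) : (Phi hκ u).1.1 x = wv κ u x := rfl

theorem Phi_snd {κ : ℝ} (hκ : 0 < κ) (u : Poly × Poly) (k : Fin 3) (x : R3) :
    (Phi hκ u).1.2 k x = wg κ u k x := rfl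

/-- the key weak identity: `½ (∇f, ∇w) + ½ κ² (f, w) = ∫ f (K w) / r` -/
theorem K_identity (HP : HardyInt) {κ : ℝ} (hκ : 0 < κ) (f : H1) (u : Poly × Poly) :
    (1 / 2) * dir f (Phi hκ u) + (1 / 2) * κ ^ 2 * ip f (Phi hκ u) = bc HP f (Phi hκ (Kop κ u)) := by
  have hAp := prof_ibp (m1 f) (m2 f) (mW f) (isProfA hκ) u.1
  have hBp := prof_ibp (m1 f) (m2 f) (mW f) (isProfB hκ) u.2
  have PA := isProfA hκ
  have PB := isProfB hκ
  have iA : ∀ k, Integrable (fun x => (G (MvPolynomial.pderiv k u.1) (hA κ) x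
      + G (MvPolynomial.X k * u.1) (hA1 κ) x) * f.1.2 k x) := fun k =>
    ((PA.bd0 _).add (PA.bd1_X _ k)).memLp.integrable_mul (m2 f k)
  have iB : ∀ k, Integrable (fun x => (G (MvPolynomial.pderiv k u.2) (hB κ) x
      + G (MvPolynomial.X k * u.2) (hB1 κ) x) * f.1.2 k x) := fun k =>
    ((PB.bd0 _).add (PB.bd1_X _ k)).memLp.integrable_mul (m2 f k)
  have hdir : dir f (Phi hκ u) = -(∫ x, lapG u.1 (hA κ) (hA1 κ) (hA2 κ) x * f.1.1 x)
      + -(∫ x, lapG u.2 (hB κ) (hB1 κ) (hB2 κ) x * f.1.1 x) := by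
    rw [← hAp, ← hBp, ← Finset.sum_add_distrib, dir_apply]
    apply Finset.sum_congr rfl
    intro k _
    rw [← integral_add (iA k) (iB k)]
    apply integral_congr_ae
    filter_upwards [ae_ne_zero] with x hx
    rw [Phi_snd, wg, if_neg hx]
    ring
  have jA : Integrable (fun x => lapG u.1 (hA κ) (hA1 κ) (hA2 κ) x * f.1.1 x) := by
    have : Bd1 (lapG u.1 (hA κ) (hA1 κ) (hA2 κ)) := by
      have h2 : Bd1 (fun x => ∑ k : Fin 3, G (MvPolynomial.X k * (MvPolynomial.X k * u.1)) (hA2 κ) x) := by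
        simp only [Fin.sum_univ_three]
        exact ((PA.bd1_h2 _ _).add (PA.bd1_h2 _ _)).add (PA.bd1_h2 _ _)
      have h3 := (((PA.bd0 (lap u.1)).bd1.add ((PA.bd1_h1 (eul u.1)).const_mul 2)).add
        ((PA.bd1_h1 u.1).const_mul 3)).add h2
      have e : lapG u.1 (hA κ) (hA1 κ) (hA2 κ) = fun x =>
          G (lap u.1) (hA κ) x + 2 * G (eul u.1) (hA1 κ) x + 3 * G u.1 (hA1 κ) x
            + ∑ k : Fin 3, G (MvPolynomial.X k * (MvPolynomial.X k * u.1)) (hA2 κ) x := by
        funext x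
        simp only [lapG, G, norm_sq_R3, ev_mul, ev_X, Fin.sum_univ_three]
        ring
      rw [e]
      exact h3
    exact this.memLp.integrable_mul (m1 f)
  have jB : Integrable (fun x => lapG u.2 (hB κ) (hB1 κ) (hB2 κ) x * f.1.1 x) := by
    have : Bd1 (lapG u.2 (hB κ) (hB1 κ) (hB2 κ)) := by
      have h2 : Bd1 (fun x => ∑ k : Fin 3, G (MvPolynomial.X k * (MvPolynomial.X k * u.2)) (hB2 κ) x) := by
        simp only [Fin.sum_univ_three]
        exact ((PB.bd1_h2 _ _).add (PB.bd1_h2 _ _)).add (PB.bd1_h2 _ _)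
      have h3 := (((PB.bd0 (lap u.2)).bd1.add ((PB.bd1_h1 (eul u.2)).const_mul 2)).add
        ((PB.bd1_h1 u.2).const_mul 3)).add h2
      have e : lapG u.2 (hB κ) (hB1 κ) (hB2 κ) = fun x =>
          G (lap u.2) (hB κ) x + 2 * G (eul u.2) (hB1 κ) x + 3 * G u.2 (hB1 κ) x
            + ∑ k : Fin 3, G (MvPolynomial.X k * (MvPolynomial.X k * u.2)) (hB2 κ) x := by
        funext x
        simp only [lapG, G, norm_sq_R3, ev_mul, ev_X, Fin.sum_univ_three]
        ring
      rw [e]
      exact h3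
    exact this.memLp.integrable_mul (m1 f)
  have jw : Integrable (fun x => f.1.1 x * wv κ u x) := (m1 f).integrable_mul (wv_bd0 hκ u).memLp
  rw [hdir, ip_apply, bc_apply]
  simp only [Phi_fst]
  rw [mul_add, mul_neg, mul_neg, ← integral_const_mul, ← integral_const_mul, ← integral_const_mul,
    ← sub_eq_add_neg]
  rw [← sub_eq_zero]
  have e1 : -(∫ x, 1 / 2 * (lapG u.1 (hA κ) (hA1 κ) (hA2 κ) x * f.1.1 x))
      - (∫ x, 1 / 2 * (lapG u.2 (hB κ) (hB1 κ) (hB2 κ) x * f.1.1 x))
      + (∫ x, 1 / 2 * κ ^ 2 * (f.1.1 x * wv κ u x))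
      = ∫ x, (1 / 2 * κ ^ 2 * (f.1.1 x * wv κ u x)
        - 1 / 2 * (lapG u.1 (hA κ) (hA1 κ) (hA2 κ) x * f.1.1 x)
        - 1 / 2 * (lapG u.2 (hB κ) (hB1 κ) (hB2 κ) x * f.1.1 x)) := by
    rw [integral_sub, integral_sub]
    · ring
    · exact jw.const_mul _
    · exact jA.const_mul _
    · exact (jw.const_mul _).sub (jA.const_mul _)
    · exact jB.const_mul _
  rw [e1, sub_eq_zero]
  apply integral_congr_ae
  filter_upwards [ae_ne_zero] with x hx
  have hx0 : ‖x‖ ≠ 0 := norm_ne_zero_iff.2 hx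
  have hr : ev rsq x = ‖x‖ ^ 2 := by
    rw [norm_sq_R3, rsq, ev_sum]
    simp only [ev_mul, ev_X]
    exact Finset.sum_congr rfl fun k _ => by ring
  simp only [lapG, wv, G, Kop, hA, hA1, hA2, hB, hB1, hB2, ev_add, ev_sub, ev_smul, ev_mul, hr]
  have hneg : ∀ p : Poly, ev (-p) x = - ev p x := by intro p; simp [ev]
  rw [hneg, ev_smul]
  field_simp
  ring

end

end Vale.Agent.P363.H849
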